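import Vale.Agent.P092.H971.GF0
import Vale.Agent.P092.H933.Cartan

/-!
P092 (helper971), [GF1]: a proper open subgroup of `SL_n` of a non-archimedean local field is
compact.
-/

set_option linter.all false

namespace Vale.Agent.P092.H971

open Matrix Matrix.SpecialLinearGroup Topology
open Vale.Agent.P092.H933

section near

variable {k : Type} [NormedField k] {n : Type} [Fintype n] [DecidableEq n]

/-- Entrywise close to `1`. -/
def near (ε : ℝ) (g : SpecialLinearGroup n k) : Prop :=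
  ∀ i j, ‖(g : Matrix n n k) i j - (1 : Matrix n n k) i j‖ ≤ ε

theorem near_e {i j : n} (h : i ≠ j) {ε : ℝ} {t : k} (hε : 0 ≤ ε) (ht : ‖t‖ ≤ ε) :
    near ε (e h t : SpecialLinearGroup n k) := by
  intro a b
  rw [e_val, Matrix.add_apply, add_sub_cancel_left, Matrix.single_apply]
  split_ifs
  · exact ht
  · rw [norm_zero]; exact hε

theorem nhds_one_eq : 𝓝 (1 : SpecialLinearGroup n k) =
    Filter.comap (fun g : SpecialLinearGroup n k => (fun i j => (g : Matrix n n k) i j : n → n → k))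
      (𝓝 (fun i j => (1 : Matrix n n k) i j : n → n → k)) := nhds_induced _ _

theorem exists_near {U : Set (SpecialLinearGroup n k)} (hU : U ∈ 𝓝 (1 : SpecialLinearGroup n k)) :
    ∃ ε : ℝ, 0 < ε ∧ ε ≤ 1 ∧ ∀ g, near ε g → g ∈ U := by
  rw [nhds_one_eq] at hU
  obtain ⟨V, hV, hVU⟩ := hU
  obtain ⟨ε, hε, hb⟩ := Metric.nhds_basis_closedBall.mem_iff.1 hV
  refine ⟨min ε 1, lt_min hε one_pos, min_le_right _ _, fun g hg => hVU (hb ?_)⟩
  rw [Metric.mem_closedBall, dist_pi_le_iff hε.le]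
  intro i
  rw [dist_pi_le_iff hε.le]
  intro j
  rw [dist_eq_norm]
  exact (hg i j).trans (min_le_left _ _)

theorem mem_nhds_of_near {U : Set (SpecialLinearGroup n k)} {ε : ℝ} (hε : 0 < ε)
    (h : ∀ g, near ε g → g ∈ U) : U ∈ 𝓝 (1 : SpecialLinearGroup n k) := by
  rw [nhds_one_eq]
  refine ⟨Metric.closedBall (fun i j => (1 : Matrix n n k) i j : n → n → k) ε,
    Metric.closedBall_mem_nhds _ hε, fun g hg => h g ?_⟩
  rw [Set.mem_preimage, Metric.mem_closedBall, dist_pi_le_iff hε.le] at hg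
  intro i j
  have := hg i
  rw [dist_pi_le_iff hε.le] at this
  have := this j
  rw [dist_eq_norm] at this
  exact this

/-- A subgroup containing a neighbourhood of one and one root group is everything. -/
theorem eq_top_of_root {V : Subgroup (SpecialLinearGroup n k)} {t : k} (ht : t ≠ 0)
    (hV : ∀ (i j : n) (h : i ≠ j), e h t ∈ V) {i j : n} (hij : i ≠ j)
    (hr : ∀ s, e hij s ∈ V) : V = ⊤ := by
  haveI : Nontrivial n := ⟨i, j, hij⟩
  have hA : ∀ l (h : i ≠ l) s, e h s ∈ V := by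
    intro l h s
    by_cases hl : j = l
    · subst hl; exact hr s
    · have := e_comm (F := k) hij hl h (s / t) t
      rw [div_mul_cancel₀ s ht] at this
      rw [← this]
      exact V.mul_mem (V.mul_mem (V.mul_mem (hr _) (hV _ _ _)) (V.inv_mem (hr _)))
        (V.inv_mem (hV _ _ _))
  have hB : ∀ l (h : l ≠ i) s, e h s ∈ V := fun l h s =>
    opp_mem h.symm (hA l h.symm) ht (hV _ _ _) s
  refine eq_top_of_e fun a b hab s => ?_
  by_cases ha : a = i
  · subst ha; exact hA b hab s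
  by_cases hb : b = i
  · subst hb; exact hB a hab s
  have := e_comm (F := k) ha (Ne.symm hb) hab s 1
  rw [mul_one] at this
  rw [← this]
  exact V.mul_mem (V.mul_mem (V.mul_mem (hB _ _ _) (hA _ _ _)) (V.inv_mem (hB _ _ _)))
        (V.inv_mem (hA _ _ _))

end near

section main

variable {k : Type} [NontriviallyNormedField k] [IsUltrametricDist k] [ProperSpace k] {N : ℕ}

/-- Size. -/
def bdd (R : ℝ) (g : Matrix (Fin N) (Fin N) k) : Prop := ∀ i j, ‖g i j‖ ≤ R

theorem isCompact_bdd (R : ℝ) : IsCompact {g : SpecialLinearGroup (Fin N) k | bdd R (g : Matrix (Fin N) (Fin N) k)} := by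
  have h1 : IsCompact {f : Fin N → Fin N → k | ∀ i j, f i j ∈ Metric.closedBall (0 : k) R} := by
    have : {f : Fin N → Fin N → k | ∀ i j, f i j ∈ Metric.closedBall (0 : k) R} =
        Set.pi Set.univ (fun _ : Fin N => Set.pi Set.univ fun _ : Fin N => Metric.closedBall (0 : k) R) := by
      ext f; simp [Set.mem_pi]
    rw [this]
    exact isCompact_univ_pi fun _ => isCompact_univ_pi fun _ => isCompact_closedBall _ _
  have h2 := (isClosedEmbedding_val (n := Fin N) (R := k)).isCompact_preimage (K := {f | ∀ i j, f i j ∈ Metric.closedBall (0 : k) R}) h1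
  refine h2.of_isClosed_subset ?_ ?_
  · have : {g : SpecialLinearGroup (Fin N) k | bdd R (g : Matrix (Fin N) (Fin N) k)} =
        ⋂ i, ⋂ j, {g : SpecialLinearGroup (Fin N) k | ‖(g : Matrix (Fin N) (Fin N) k) i j‖ ≤ R} := by
      ext g; simp [bdd]
    rw [this]
    refine isClosed_iInter fun i => isClosed_iInter fun j => isClosed_le ?_ continuous_const
    exact ((_root_.continuous_apply j).comp (Matrix.SpecialLinearGroup.continuous_apply _ continuous_id i)).norm
  · intro g hg i j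
    rw [Metric.mem_closedBall, dist_zero_right]
    exact hg i j

/-- Conjugating a small element by an integral matrix with integral inverse. -/
theorem near_conj {w wi : Matrix (Fin N) (Fin N) k} (hw : InK w wi) {ε : ℝ} (hε : 0 ≤ ε)
    {g : SpecialLinearGroup (Fin N) k} (hg : near ε g) (i j : Fin N) :
    ‖(w * (g : Matrix (Fin N) (Fin N) k) * wi) i j - (1 : Matrix (Fin N) (Fin N) k) i j‖ ≤ ε := by
  have h1 : (w * (g : Matrix (Fin N) (Fin N) k) * wi) i j - (1 : Matrix (Fin N) (Fin N) k) i j =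
      (w * ((g : Matrix (Fin N) (Fin N) k) - 1) * wi) i j := by
    rw [Matrix.mul_sub, Matrix.sub_mul, Matrix.mul_one, hw.mul, Matrix.sub_apply]
  rw [h1]
  have h2 : ∀ a b, ‖(w * ((g : Matrix (Fin N) (Fin N) k) - 1)) a b‖ ≤ 1 * ε :=
    mul_entry_le' zero_le_one hε hw.le fun a b => by rw [Matrix.sub_apply]; exact hg a b
  have h3 := mul_entry_le' (A := w * ((g : Matrix (Fin N) (Fin N) k) - 1)) (B := wi)
    (by rw [one_mul]; exact hε : (0 : ℝ) ≤ 1 * ε) zero_le_one h2 hw.lei i j
  simpa using h3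

theorem inv_val_eq {n R : Type*} [Fintype n] [DecidableEq n] [CommRing R]
    (g : SpecialLinearGroup n R) (B : Matrix n n R)
    (h : (g : Matrix n n R) * B = 1) : ((g⁻¹ : SpecialLinearGroup n R) : Matrix n n R) = B := by
  have h2 : ((g⁻¹ : SpecialLinearGroup n R) : Matrix n n R) * (g : Matrix n n R) = 1 := by
    have := congrArg (fun x : SpecialLinearGroup n R => (x : Matrix n n R)) (inv_mul_cancel g)
    simpa only [coe_mul, coe_one] using this
  calc _ = ((g⁻¹ : SpecialLinearGroup n R) : Matrix n n R) * ((g : Matrix n n R) * B) := by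
        rw [h, Matrix.mul_one]
    _ = B := by rw [← Matrix.mul_assoc, h2, Matrix.one_mul]

/-- A Cartan decomposition with the left factor of determinant one. -/
theorem exists_car (h0 : 0 < N) (g : SpecialLinearGroup (Fin N) k) :
    ∃ (u : SpecialLinearGroup (Fin N) k) (v vi : Matrix (Fin N) (Fin N) k) (a : Fin N → k),
      InK (u : Matrix (Fin N) (Fin N) k) ((u⁻¹ : SpecialLinearGroup (Fin N) k) : Matrix (Fin N) (Fin N) k) ∧
      InK v vi ∧ (Antitone fun i => ‖a i‖) ∧
      (g : Matrix (Fin N) (Fin N) k) = (u : Matrix (Fin N) (Fin N) k) * diagonal a * v := by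
  let c := car (g : Matrix (Fin N) (Fin N) k)
  let δ : k := c.u.det
  have hδ : ‖δ‖ = 1 := c.hu.norm_det
  have hδ0 : δ ≠ 0 := fun h => by rw [h, norm_zero] at hδ; exact zero_ne_one hδ
  let z : Fin N := ⟨0, h0⟩
  let d : Fin N → k := fun i => if i = z then δ⁻¹ else 1
  let di : Fin N → k := fun i => if i = z then δ else 1
  have hdd : ∀ i, d i * di i = 1 := fun i => by
    simp only [d, di]; split_ifs <;> simp [hδ0]
  have hD : InK (diagonal d) (diagonal di) := by
    refine ⟨fun i j => ?_, fun i j => ?_, ?_, ?_⟩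
    · rw [Matrix.diagonal_apply]; split_ifs
      · simp only [d]; split_ifs <;> simp [hδ]
      · simp
    · rw [Matrix.diagonal_apply]; split_ifs
      · simp only [di]; split_ifs <;> simp [hδ]
      · simp
    · rw [Matrix.diagonal_mul_diagonal, ← Matrix.diagonal_one]; congr 1; funext i; exact hdd i
    · rw [Matrix.diagonal_mul_diagonal, ← Matrix.diagonal_one]; congr 1; funext i
      rw [mul_comm]; exact hdd i
  have hu' : (c.u * diagonal d).det = 1 := by
    rw [Matrix.det_mul, Matrix.det_diagonal]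
    have : ∏ i, d i = δ⁻¹ := by
      simp only [d]
      rw [Finset.prod_ite_eq' Finset.univ z (fun _ => δ⁻¹)]
      simp
    rw [this]; exact mul_inv_cancel₀ hδ0
  have hK := c.hu.mulK hD
  obtain ⟨u0, hu0⟩ : ∃ u0 : SpecialLinearGroup (Fin N) k,
      (u0 : Matrix (Fin N) (Fin N) k) = c.u * diagonal d := ⟨⟨_, hu'⟩, rfl⟩
  refine ⟨u0, c.v, c.vi, fun i => di i * c.a i, ?_, c.hv, ?_, ?_⟩
  · have h1 : (u0 : Matrix (Fin N) (Fin N) k) * (diagonal di * c.ui) = 1 := by
      rw [hu0]; exact hK.mul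
    rw [inv_val_eq u0 _ h1, hu0]
    exact hK
  · have : (fun i => ‖di i * c.a i‖) = fun i => ‖c.a i‖ := by
      funext i
      rw [norm_mul]
      simp only [di]; split_ifs <;> simp [hδ]
    rw [this]; exact c.anti
  · rw [hu0, Matrix.mul_assoc c.u, Matrix.diagonal_mul_diagonal]
    have : (fun i => d i * (di i * c.a i)) = c.a := by
      funext i; rw [← mul_assoc, hdd, one_mul]
    rw [this]
    exact c.eq

theorem bdd.mono {R R' : ℝ} (h : R ≤ R') {g : Matrix (Fin N) (Fin N) k} (hg : bdd R g) : bdd R' g :=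
  fun i j => (hg i j).trans h

/-- The analysis of one unbounded element. -/
theorem root_mem {V : Subgroup (SpecialLinearGroup (Fin N) k)} {ε : ℝ} (hε : 0 < ε)
    (hV : ∀ y, near ε y → y ∈ V) (h2 : 2 ≤ N) {x u g : SpecialLinearGroup (Fin N) k}
    (hx : InK (x : Matrix (Fin N) (Fin N) k) ((x⁻¹ : SpecialLinearGroup (Fin N) k) : Matrix (Fin N) (Fin N) k))
    (hu : InK (u : Matrix (Fin N) (Fin N) k) ((u⁻¹ : SpecialLinearGroup (Fin N) k) : Matrix (Fin N) (Fin N) k))
    {v vi : Matrix (Fin N) (Fin N) k} (hv : InK v vi) {a : Fin N → k} (ha : Antitone fun i => ‖a i‖)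
    (hg : (g : Matrix (Fin N) (Fin N) k) = (u : Matrix (Fin N) (Fin N) k) * diagonal a * v)
    (hxu : near ε (x⁻¹ * u)) (hy : x⁻¹ * g * x ∈ V) {s : k}
    (hR : ¬ bdd (‖s‖ / ε) (g : Matrix (Fin N) (Fin N) k))
    (hzl : (⟨0, by omega⟩ : Fin N) ≠ ⟨N - 1, by omega⟩) :
    (e hzl s : SpecialLinearGroup (Fin N) k) ∈ V := by
  set z : Fin N := ⟨0, by omega⟩ with hz
  set l : Fin N := ⟨N - 1, by omega⟩ with hl
  have hza : ∀ i, ‖a i‖ ≤ ‖a z‖ := fun i => ha (Fin.mk_le_of_le_val (Nat.zero_le _))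
  have hla : ∀ i, ‖a l‖ ≤ ‖a i‖ := fun i => ha (Fin.le_def.2 (by simp [hl]; omega))
  -- the determinant
  have hdet : ∏ i, ‖a i‖ = 1 := by
    have h1 : (g : Matrix (Fin N) (Fin N) k).det = 1 := g.2
    rw [hg, Matrix.det_mul, Matrix.det_mul, Matrix.det_diagonal] at h1
    have h3 := congrArg norm h1
    rw [norm_mul, norm_mul, hu.norm_det, hv.norm_det, one_mul, mul_one, norm_one, norm_prod] at h3
    exact h3
  have ha0 : ∀ i, a i ≠ 0 := by
    intro i hi
    have : ∏ i, ‖a i‖ = 0 := Finset.prod_eq_zero (Finset.mem_univ i) (by rw [hi, norm_zero])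
    rw [this] at hdet; exact zero_ne_one hdet
  have hl1 : ‖a l‖ ≤ 1 := by
    by_contra hc
    push Not at hc
    rw [← Finset.mul_prod_erase Finset.univ (fun i => ‖a i‖) (Finset.mem_univ l)] at hdet
    have h4 : 1 ≤ ∏ i ∈ Finset.univ.erase l, ‖a i‖ := by
      refine Finset.prod_induction (fun i => ‖a i‖) (fun r => 1 ≤ r) (fun _ _ h h' => one_le_mul_of_one_le_of_one_le h h')
        le_rfl fun i _ => hc.le.trans (hla i)
    nlinarith [norm_nonneg (a l)]
  have hbig : ‖s‖ / ε ≤ ‖a z‖ := by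
    by_contra hc
    push Not at hc
    refine hR fun i j => ?_
    rw [hg]
    refine le_trans ?_ hc.le
    have h5 : ∀ i j, ‖((u : Matrix (Fin N) (Fin N) k) * diagonal a) i j‖ ≤ ‖a z‖ := fun i j => by
      rw [Matrix.mul_diagonal, norm_mul]
      calc _ ≤ 1 * ‖a j‖ := mul_le_mul_of_nonneg_right (hu.le _ _) (norm_nonneg _)
        _ ≤ _ := by rw [one_mul]; exact hza j
    simpa using mul_entry_le' (norm_nonneg (a z)) zero_le_one h5 hv.le i j
  -- the small parameter
  set t : k := s * a l / a z with ht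
  have htε : ‖t‖ ≤ ε := by
    rw [ht, norm_div, norm_mul, div_le_iff₀ (norm_pos_iff.2 (ha0 z))]
    rw [div_le_iff₀ hε] at hbig
    calc ‖s‖ * ‖a l‖ ≤ ‖s‖ * 1 := mul_le_mul_of_nonneg_left hl1 (norm_nonneg _)
      _ ≤ _ := by rw [mul_one]; linarith
  have hta : a z * t = s * a l := by rw [ht]; field_simp [ha0 z]
  -- the conjugated small element
  have hw : InK (v * (x : Matrix (Fin N) (Fin N) k))
      (((x⁻¹ : SpecialLinearGroup (Fin N) k) : Matrix (Fin N) (Fin N) k) * vi) := hv.mulK hx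
  have hqd : ((((x⁻¹ : SpecialLinearGroup (Fin N) k) : Matrix (Fin N) (Fin N) k) * vi) *
      ((e hzl t : SpecialLinearGroup (Fin N) k) : Matrix (Fin N) (Fin N) k) *
      (v * (x : Matrix (Fin N) (Fin N) k))).det = 1 := by
    rw [Matrix.det_mul, Matrix.det_mul, (e hzl t : SpecialLinearGroup (Fin N) k).2, mul_one,
      ← Matrix.det_mul, hw.mul', Matrix.det_one]
  obtain ⟨q, hq⟩ : ∃ q : SpecialLinearGroup (Fin N) k, (q : Matrix (Fin N) (Fin N) k) =
      ((((x⁻¹ : SpecialLinearGroup (Fin N) k) : Matrix (Fin N) (Fin N) k) * vi) *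
      ((e hzl t : SpecialLinearGroup (Fin N) k) : Matrix (Fin N) (Fin N) k) *
      (v * (x : Matrix (Fin N) (Fin N) k))) := ⟨⟨_, hqd⟩, rfl⟩
  have hqV : q ∈ V := by
    refine hV q fun i j => ?_
    rw [hq]
    exact near_conj hw.symm hε.le (near_e hzl hε.le htε) i j
  have hκ := hV _ hxu
  -- the identity
  have key : x⁻¹ * g * x * q = (x⁻¹ * u) * e hzl s * (x⁻¹ * u)⁻¹ * (x⁻¹ * g * x) := by
    have k1 : (x⁻¹ * u)⁻¹ * (x⁻¹ * g * x) = u⁻¹ * g * x := by group
    rw [mul_assoc ((x⁻¹ * u) * e hzl s), k1]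
    have k2 : x⁻¹ * g * x * q = (x⁻¹ * u) * (u⁻¹ * g * x * q) := by group
    rw [k2, mul_assoc (x⁻¹ * u)]
    congr 1
    refine Subtype.ext ?_
    have k3 : ((u⁻¹ * g * x : SpecialLinearGroup (Fin N) k) : Matrix (Fin N) (Fin N) k) =
        diagonal a * (v * (x : Matrix (Fin N) (Fin N) k)) := by
      rw [coe_mul, coe_mul, hg]
      rw [Matrix.mul_assoc (u : Matrix (Fin N) (Fin N) k), ← Matrix.mul_assoc _ (u : Matrix (Fin N) (Fin N) k), hu.mul',
        Matrix.one_mul, Matrix.mul_assoc]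
    rw [coe_mul _ q, k3, coe_mul (e hzl s), k3, hq]
    rw [Matrix.mul_assoc (diagonal a), Matrix.mul_assoc _ _ (v * (x : Matrix (Fin N) (Fin N) k)),
      ← Matrix.mul_assoc (v * (x : Matrix (Fin N) (Fin N) k)) _, hw.mul, Matrix.one_mul,
      ← Matrix.mul_assoc (diagonal a), ← Matrix.mul_assoc _ (diagonal a)]
    congr 1
    rw [e_val, e_val, Matrix.mul_add, Matrix.add_mul, Matrix.mul_one, Matrix.one_mul]
    congr 1
    ext i j
    rw [Matrix.diagonal_mul, Matrix.mul_diagonal, Matrix.single_apply, Matrix.single_apply]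
    by_cases hh : z = i ∧ l = j
    · rw [if_pos hh, if_pos hh, ← hh.1, ← hh.2, hta]
    · rw [if_neg hh, if_neg hh, mul_zero, zero_mul]
  have h6 : e hzl s = (x⁻¹ * u)⁻¹ * (x⁻¹ * g * x * q * (x⁻¹ * g * x)⁻¹) * (x⁻¹ * u) := by
    rw [key]; group
  rw [h6]
  exact V.mul_mem (V.mul_mem (V.inv_mem hκ) (V.mul_mem (V.mul_mem hy hqV) (V.inv_mem hy))) hκ

/-- **A proper open subgroup of `SL_n` of a non-archimedean local field is compact.** -/
theorem isCompact_of_isOpen_ne_top (U : Subgroup (SpecialLinearGroup (Fin N) k))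
    (hU : IsOpen (U : Set (SpecialLinearGroup (Fin N) k))) (h : U ≠ ⊤) :
    IsCompact (U : Set (SpecialLinearGroup (Fin N) k)) := by
  rcases Nat.lt_or_ge N 2 with hN | hN
  · have hs : Subsingleton (SpecialLinearGroup (Fin N) k) := by
      interval_cases N
      · exact ⟨fun a b => Subtype.ext (Subsingleton.elim _ _)⟩
      · refine ⟨fun a b => Subtype.ext ?_⟩
        have h1 := a.2
        have h2 := b.2
        rw [Matrix.det_fin_one] at h1 h2
        ext i j
        rw [Subsingleton.elim i 0, Subsingleton.elim j 0]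
        exact h1.trans h2.symm
    exact Set.Subsingleton.isCompact (fun a _ b _ => Subsingleton.elim a b)
  by_contra hc
  have hA : ∀ R, ∃ g ∈ U, ¬ bdd R (g : Matrix (Fin N) (Fin N) k) := by
    intro R
    by_contra hb
    push Not at hb
    exact hc ((isCompact_bdd R).of_isClosed_subset (Subgroup.isClosed_of_isOpen U hU) fun g hg => hb g hg)
  obtain ⟨ε, hε, hε1, hεU⟩ := exists_near (hU.mem_nhds U.one_mem)
  have hS : IsCompact ({g : SpecialLinearGroup (Fin N) k | bdd 1 (g : Matrix (Fin N) (Fin N) k)} ∩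
      (fun g => g⁻¹) ⁻¹' {g : SpecialLinearGroup (Fin N) k | bdd 1 (g : Matrix (Fin N) (Fin N) k)}) :=
    (isCompact_bdd 1).inter_right ((isCompact_bdd 1).isClosed.preimage continuous_inv)
  obtain ⟨T, hT, hcov⟩ := hS.elim_nhds_subcover (fun x => {y | near ε (x⁻¹ * y)}) (by
    intro x _
    have h1 : {y : SpecialLinearGroup (Fin N) k | near ε y} ∈ 𝓝 (1 : SpecialLinearGroup (Fin N) k) :=
      mem_nhds_of_near hε fun g hg => hg
    have h2 : Filter.Tendsto (fun y => x⁻¹ * y) (𝓝 x) (𝓝 (x⁻¹ * x)) :=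
      (continuous_const.mul continuous_id).tendsto x
    rw [inv_mul_cancel] at h2
    exact h2 h1)
  have hdec := fun g : SpecialLinearGroup (Fin N) k => exists_car (k := k) (by omega : 0 < N) g
  choose u v vi a hu hv ha hg using hdec
  have hP : ∃ x ∈ T, ∀ R, ∃ g ∈ U, ¬ bdd R (g : Matrix (Fin N) (Fin N) k) ∧ near ε (x⁻¹ * u g) := by
    by_contra hb
    push Not at hb
    choose! Rx hRx using hb
    obtain ⟨g, hgU, hgR⟩ := hA (∑ x ∈ T, |Rx x|)
    have hmem : u g ∈ ⋃ x ∈ T, {y | near ε (x⁻¹ * y)} := hcov ⟨(hu g).le, (hu g).lei⟩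
    simp only [Set.mem_iUnion, Set.mem_setOf_eq] at hmem
    obtain ⟨x, hxT, hx⟩ := hmem
    by_cases hb' : bdd (Rx x) (g : Matrix (Fin N) (Fin N) k)
    · refine hgR (hb'.mono ((le_abs_self _).trans ?_))
      exact Finset.single_le_sum (f := fun x => |Rx x|) (fun _ _ => abs_nonneg _) hxT
    · exact hRx x hxT g hgU hb' hx
  obtain ⟨x, hxT, hx⟩ := hP
  have hxK : InK (x : Matrix (Fin N) (Fin N) k)
      ((x⁻¹ : SpecialLinearGroup (Fin N) k) : Matrix (Fin N) (Fin N) k) := by
    refine ⟨(hT x hxT).1, (hT x hxT).2, ?_, ?_⟩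
    · have := congrArg (fun x : SpecialLinearGroup (Fin N) k => (x : Matrix (Fin N) (Fin N) k)) (mul_inv_cancel x)
      simpa only [coe_mul, coe_one] using this
    · have := congrArg (fun x : SpecialLinearGroup (Fin N) k => (x : Matrix (Fin N) (Fin N) k)) (inv_mul_cancel x)
      simpa only [coe_mul, coe_one] using this
  let V : Subgroup (SpecialLinearGroup (Fin N) k) := U.comap (MulAut.conj x).toMonoidHom
  have hVm : ∀ y, y ∈ V ↔ x * y * x⁻¹ ∈ U := fun y => Iff.rfl
  have hV : ∀ y, near ε y → y ∈ V := by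
    intro y hy
    rw [hVm]
    refine hεU _ fun i j => ?_
    rw [coe_mul, coe_mul]
    exact near_conj hxK hε.le hy i j
  have hzl : (⟨0, by omega⟩ : Fin N) ≠ ⟨N - 1, by omega⟩ := fun h => by
    have := congrArg Fin.val h
    simp at this
    omega
  obtain ⟨t, ht0, htε⟩ := NormedField.exists_norm_lt k hε
  have hVtop : V = ⊤ := by
    refine eq_top_of_root (t := t) (norm_pos_iff.1 ht0) (fun i j hij => hV _ (near_e hij hε.le htε.le)) hzl fun s => ?_
    obtain ⟨g, hgU, hgR, hgx⟩ := hx (‖s‖ / ε)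
    refine root_mem hε hV hN hxK (hu g) (hv g) (ha g) (hg g) hgx ?_ hgR hzl
    rw [hVm]
    have : x * (x⁻¹ * g * x) * x⁻¹ = g := by group
    rw [this]; exact hgU
  refine h (le_antisymm le_top fun g _ => ?_)
  have : x⁻¹ * g * x ∈ V := by rw [hVtop]; exact Subgroup.mem_top _
  rw [hVm] at this
  have h3 : x * (x⁻¹ * g * x) * x⁻¹ = g := by group
  rwa [h3] at this

end main

end Vale.Agent.P092.H971
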