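import Vale.Agent.P092.H971.GF1
import Vale.Agent.P092.H899.Simple

/-!
P092 (helper971), [GF2], [GF4], [GF5], [GF6]: finite-index, open normal, compact normal and locally
bounded normal subgroups of `SL_n`, centralisers of open subgroups.
-/

set_option linter.all false

namespace Vale.Agent.P092.H971

open Matrix Matrix.SpecialLinearGroup Topology

section anyfield

variable {n : Type} [Fintype n] [DecidableEq n] {F : Type} [Field F]

theorem torus_conj {i j : n} (hij : i ≠ j) {a : F} (ha : a ≠ 0) (t : F) :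
    (diag2n hij a ha : SpecialLinearGroup n F) * e hij t * (diag2n hij a ha)⁻¹ =
      e hij (a ^ 2 * t) := by
  rw [mul_inv_eq_iff_eq_mul]
  refine Subtype.ext ?_
  rw [coe_mul, coe_mul, e_val, e_val, diag2n_coe, Matrix.mul_add, Matrix.add_mul, Matrix.mul_one,
    Matrix.one_mul]
  congr 1
  ext x y
  rw [Matrix.diagonal_mul, Matrix.mul_diagonal, Matrix.single_apply, Matrix.single_apply]
  by_cases hx : i = x
  · by_cases hy : j = y
    · subst hx; subst hy
      have : ¬ (j = i) := hij.symm
      simp [this]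
      field_simp
    · simp [hy]
  · simp [hx]

/-- A finite-index subgroup of `SL_n` of an infinite field is everything. -/
theorem eq_top_of_finiteIndex [Infinite F] [Nontrivial n]
    (U : Subgroup (SpecialLinearGroup n F)) [U.FiniteIndex] : U = ⊤ := by
  have key : U.normalCore = ⊤ := by
    refine eq_top_of_e fun i j hij x => ?_
    set S := U.normalCore with hS
    haveI : S.FiniteIndex := by rw [hS]; infer_instance
    haveI : Finite (SpecialLinearGroup n F ⧸ S) := Subgroup.finite_quotient_of_finiteIndex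
    have hsq : ∀ (c t : F), e hij t ∈ S → e hij (c ^ 2 * t) ∈ S := by
      intro c t ht
      by_cases hc : c = 0
      · subst hc
        have : (0 : F) ^ 2 * t = 0 := by ring
        rw [this, e_zero]; exact S.one_mem
      · rw [← torus_conj hij hc]
        exact (inferInstance : S.Normal).conj_mem _ ht _
    obtain ⟨y, hy⟩ := Finite.exists_infinite_fiber
      (fun a : F => ((e hij (a ^ 2 * x) : SpecialLinearGroup n F) : SpecialLinearGroup n F ⧸ S))
    have hinf : (((fun a : F => ((e hij (a ^ 2 * x) : SpecialLinearGroup n F) :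
        SpecialLinearGroup n F ⧸ S)) ⁻¹' {y})).Infinite := Set.infinite_coe_iff.1 hy
    obtain ⟨a, ha⟩ := hinf.nonempty
    obtain ⟨b, hb, hab⟩ := (hinf.diff (Set.toFinite {a, -a})).nonempty
    have hne : a ^ 2 - b ^ 2 ≠ 0 := by
      intro h
      apply hab
      have : (a - b) * (a + b) = 0 := by rw [← h]; ring
      rcases mul_eq_zero.1 this with h1 | h1
      · left; exact (sub_eq_zero.1 h1).symm
      · right; exact (eq_neg_of_add_eq_zero_right h1)
    have h1 : e hij ((a ^ 2 - b ^ 2) * x) ∈ S := by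
      have h2 : ((e hij (b ^ 2 * x) : SpecialLinearGroup n F) : SpecialLinearGroup n F ⧸ S) =
        ((e hij (a ^ 2 * x) : SpecialLinearGroup n F) : SpecialLinearGroup n F ⧸ S) := by
        rw [Set.mem_preimage, Set.mem_singleton_iff] at ha hb
        rw [ha, hb]
      rw [QuotientGroup.eq, e_inv, e_mul] at h2
      convert h2 using 2
      ring
    have h2 := hsq (a ^ 2 - b ^ 2)⁻¹ _ h1
    have h3 : ((a ^ 2 - b ^ 2)⁻¹) ^ 2 * ((a ^ 2 - b ^ 2) * x) = (a ^ 2 - b ^ 2)⁻¹ * x := by
      field_simp
    rw [h3] at h2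
    have h4 := S.mul_mem (hsq a _ h2) (S.inv_mem (hsq b _ h2))
    rw [e_inv, e_mul] at h4
    convert h4 using 2
    field_simp
    ring
  exact top_le_iff.1 (key ▸ Subgroup.normalCore_le U)

/-- A matrix commuting with one nontrivial element of every root group is central. -/
theorem mem_center_of_commute {g : SpecialLinearGroup n F}
    (h : ∀ (i j : n) (hij : i ≠ j), ∃ t : F, t ≠ 0 ∧ g * e hij t = e hij t * g) :
    g ∈ Subgroup.center (SpecialLinearGroup n F) := by
  have h1 : (g : Matrix n n F) ∈ Set.range (Matrix.scalar n) := by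
    refine mem_range_scalar_of_commute_single fun i j hij => ?_
    obtain ⟨t, ht, hc⟩ := h i j hij
    have h2 := congrArg (fun x : SpecialLinearGroup n F => (x : Matrix n n F)) hc
    simp only [coe_mul, e_val, Matrix.mul_add, Matrix.add_mul, Matrix.mul_one, Matrix.one_mul] at h2
    have h3 := add_left_cancel h2
    have h4 : (single i j t : Matrix n n F) = t • single i j 1 := by
      rw [smul_single, smul_eq_mul, mul_one]
    rw [h4, Matrix.mul_smul, Matrix.smul_mul] at h3
    exact (smul_right_injective _ ht h3).symm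
  obtain ⟨c, hc⟩ := h1
  refine Subgroup.mem_center_iff.2 fun B => Subtype.ext ?_
  rw [coe_mul, coe_mul, ← hc]
  exact (scalar_commute c (Commute.all c) (B : Matrix n n F)).symm

end anyfield

section normed

variable {k : Type} [NontriviallyNormedField k] {n : Type} [Fintype n] [DecidableEq n]

theorem exists_small {ε : ℝ} (hε : 0 < ε) : ∃ t : k, t ≠ 0 ∧ ‖t‖ ≤ ε := by
  obtain ⟨t, h1, h2⟩ := NormedField.exists_norm_lt k hε
  exact ⟨t, norm_pos_iff.1 h1, h2.le⟩

/-- [GF5] An element commuting with a neighbourhood of `1` is central. -/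
theorem mem_center_of_nhds {g : SpecialLinearGroup n k} {W : Set (SpecialLinearGroup n k)}
    (hW : W ∈ 𝓝 (1 : SpecialLinearGroup n k)) (h : ∀ x ∈ W, g * x = x * g) :
    g ∈ Subgroup.center (SpecialLinearGroup n k) := by
  obtain ⟨ε, hε, -, hn⟩ := exists_near hW
  obtain ⟨t, ht, hts⟩ := exists_small (k := k) hε
  exact mem_center_of_commute fun i j hij => ⟨t, ht, h _ (hn _ (near_e hij hε.le hts))⟩

/-- [GF5] The centraliser of an open subgroup is the centre. -/
theorem centralizer_of_isOpen (U : Subgroup (SpecialLinearGroup n k))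
    (hU : IsOpen (U : Set (SpecialLinearGroup n k))) :
    Subgroup.centralizer (U : Set (SpecialLinearGroup n k)) =
      Subgroup.center (SpecialLinearGroup n k) := by
  refine le_antisymm (fun g hg => ?_) (Subgroup.center_le_centralizer _)
  refine mem_center_of_nhds (hU.mem_nhds U.one_mem) fun x hx => ?_
  exact (Subgroup.mem_centralizer_iff.1 hg x hx).symm

/-- [GF6] An element with open centraliser is central. -/
theorem mem_center_of_isOpen_centralizer {g : SpecialLinearGroup n k}
    (h : IsOpen (Subgroup.centralizer {g} : Set (SpecialLinearGroup n k))) :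
    g ∈ Subgroup.center (SpecialLinearGroup n k) := by
  refine mem_center_of_nhds (h.mem_nhds (Subgroup.one_mem _)) fun x hx => ?_
  exact Subgroup.mem_centralizer_iff.1 hx g rfl

/-- An open normal subgroup is everything. -/
theorem eq_top_of_isOpen_normal [Nontrivial n] (U : Subgroup (SpecialLinearGroup n k)) [U.Normal]
    (hU : IsOpen (U : Set (SpecialLinearGroup n k))) : U = ⊤ := by
  obtain ⟨ε, hε, -, hn⟩ := exists_near (hU.mem_nhds U.one_mem)
  refine eq_top_of_e fun i j hij x => ?_
  have hpos : 0 < min 1 (ε / (‖x‖ + 1)) := lt_min one_pos (div_pos hε (by positivity))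
  obtain ⟨a, ha, has⟩ := exists_small (k := k) hpos
  have h1 : ‖a ^ 2 * x‖ ≤ ε := by
    have h2 : ‖a‖ ≤ 1 := has.trans (min_le_left _ _)
    have h3 : ‖a‖ ≤ ε / (‖x‖ + 1) := has.trans (min_le_right _ _)
    rw [le_div_iff₀ (by positivity)] at h3
    rw [norm_mul, norm_pow]
    nlinarith [norm_nonneg a, norm_nonneg x, mul_nonneg (norm_nonneg a) (norm_nonneg x)]
  have h2 := hn _ (near_e hij hε.le h1)
  rw [← torus_conj hij ha] at h2
  have h3 := (inferInstance : U.Normal).conj_mem _ h2 (diag2n hij a ha)⁻¹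
  have h4 : (diag2n hij a ha : SpecialLinearGroup n k)⁻¹ *
      ((diag2n hij a ha) * e hij x * (diag2n hij a ha)⁻¹) * ((diag2n hij a ha)⁻¹)⁻¹ = e hij x := by
    group
  rwa [h4] at h3

theorem exists_bound {C : Set (SpecialLinearGroup n k)} (hC : IsCompact C) :
    ∃ R : ℝ, 0 ≤ R ∧ ∀ g ∈ C, ∀ i j, ‖(g : Matrix n n k) i j‖ ≤ R := by
  have h1 : ∀ p : n × n, ∃ R : ℝ, 0 ≤ R ∧ ∀ g ∈ C, ‖(g : Matrix n n k) p.1 p.2‖ ≤ R := by
    intro p
    have hc : Continuous fun g : SpecialLinearGroup n k => ‖(g : Matrix n n k) p.1 p.2‖ :=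
      ((_root_.continuous_apply p.2).comp
        (Matrix.SpecialLinearGroup.continuous_apply _ continuous_id p.1)).norm
    obtain ⟨R, hR⟩ := hC.bddAbove_image hc.continuousOn
    exact ⟨max R 0, le_max_right _ _, fun g hg => (hR ⟨g, hg, rfl⟩).trans (le_max_left _ _)⟩
  choose R hR0 hR using h1
  refine ⟨∑ p : n × n, R p, Finset.sum_nonneg fun p _ => hR0 p, fun g hg i j => ?_⟩
  exact (hR (i, j) g hg).trans (Finset.single_le_sum (f := R) (fun p _ => hR0 p)
    (Finset.mem_univ (i, j)))

theorem quad_zero {α β γ : k} {R : ℝ} (h : ∀ t : k, ‖α + t * β + t ^ 2 * γ‖ ≤ R) :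
    β = 0 ∧ γ = 0 := by
  have hR : 0 ≤ R := (norm_nonneg _).trans (h 0)
  have hγ : γ = 0 := by
    by_contra hc
    have hp : 0 < ‖γ‖ := norm_pos_iff.2 hc
    obtain ⟨t, ht⟩ := NormedField.exists_lt_norm k (max 1 ((‖α‖ + ‖β‖ + R) / ‖γ‖))
    have h1 : 1 < ‖t‖ := (le_max_left _ _).trans_lt ht
    have h2 : (‖α‖ + ‖β‖ + R) / ‖γ‖ < ‖t‖ := (le_max_right _ _).trans_lt ht
    rw [div_lt_iff₀ hp] at h2
    have h3 : ‖t ^ 2 * γ‖ ≤ R + ‖α‖ + ‖t‖ * ‖β‖ := by
      have : t ^ 2 * γ = (α + t * β + t ^ 2 * γ) - α - t * β := by ring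
      rw [this]
      refine (norm_sub_le _ _).trans ?_
      refine add_le_add ((norm_sub_le _ _).trans (add_le_add (h t) le_rfl)) (norm_mul_le _ _)
    rw [norm_mul, norm_pow] at h3
    nlinarith [norm_nonneg α, norm_nonneg β, mul_nonneg (sub_nonneg.2 h1.le) (norm_nonneg α),
      mul_nonneg (sub_nonneg.2 h1.le) hR, mul_pos (lt_trans zero_lt_one h1) hp]
  refine ⟨?_, hγ⟩
  by_contra hc
  have hp : 0 < ‖β‖ := norm_pos_iff.2 hc
  obtain ⟨t, ht⟩ := NormedField.exists_lt_norm k ((‖α‖ + R) / ‖β‖)
  rw [div_lt_iff₀ hp] at ht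
  have h3 : ‖t * β‖ ≤ R + ‖α‖ := by
    have : t * β = (α + t * β + t ^ 2 * γ) - α := by rw [hγ]; ring
    rw [this]
    exact (norm_sub_le _ _).trans (add_le_add (h t) le_rfl)
  rw [norm_mul] at h3
  linarith

/-- An element all of whose conjugates lie in a compact set is central. -/
theorem mem_center_of_conj {g : SpecialLinearGroup n k} {C : Set (SpecialLinearGroup n k)}
    (hC : IsCompact C) (h : ∀ x, x * g * x⁻¹ ∈ C) :
    g ∈ Subgroup.center (SpecialLinearGroup n k) := by
  obtain ⟨R, hR0, hR⟩ := exists_bound hC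
  have key : ∀ (i j : n) (hij : i ≠ j), (g : Matrix n n k) j j - (g : Matrix n n k) i i = 0 ∧
      -(g : Matrix n n k) j i = 0 := by
    intro i j hij
    refine quad_zero (α := (g : Matrix n n k) i j) (R := R) fun t => ?_
    have h1 := hR _ (h (e hij t)) i j
    rw [e_inv, coe_mul, coe_mul, e_val, e_val] at h1
    have h2 : ((1 + single i j t) * (g : Matrix n n k) * (1 + single i j (-t))) i j =
        (g : Matrix n n k) i j + t * ((g : Matrix n n k) j j - (g : Matrix n n k) i i) +
          t ^ 2 * -(g : Matrix n n k) j i := by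
      rw [Matrix.add_mul, Matrix.one_mul, Matrix.mul_add, Matrix.mul_one, Matrix.add_mul]
      simp only [Matrix.add_apply, Matrix.single_mul_apply_same, Matrix.mul_single_apply_same]
      ring
    rwa [h2] at h1
  refine mem_center_of_commute fun i j hij => ⟨1, one_ne_zero, Subtype.ext ?_⟩
  rw [coe_mul, coe_mul, e_val, Matrix.mul_add, Matrix.add_mul, Matrix.mul_one, Matrix.one_mul]
  congr 1
  ext x y
  have hoff : ∀ a b : n, a ≠ b → (g : Matrix n n k) a b = 0 := fun a b hab => by
    simpa using (key b a hab.symm).2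
  have hd : (g : Matrix n n k) j j = (g : Matrix n n k) i i := sub_eq_zero.1 (key i j hij).1
  by_cases hx : x = i
  · subst hx
    rw [Matrix.single_mul_apply_same, one_mul]
    by_cases hy : y = j
    · subst hy
      rw [Matrix.mul_single_apply_same, mul_one, hd]
    · rw [Matrix.mul_single_apply_of_ne _ _ _ _ _ hy, hoff _ _ (Ne.symm hy)]
  · rw [Matrix.single_mul_apply_of_ne _ _ _ _ _ hx]
    by_cases hy : y = j
    · subst hy
      rw [Matrix.mul_single_apply_same, mul_one, hoff _ _ hx]
    · rw [Matrix.mul_single_apply_of_ne _ _ _ _ _ hy]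

/-- A normal subgroup contained in a compact set is central. -/
theorem le_center_of_isCompact (U : Subgroup (SpecialLinearGroup n k)) [U.Normal]
    {C : Set (SpecialLinearGroup n k)} (hC : IsCompact C) (h : (U : Set (SpecialLinearGroup n k)) ⊆ C) :
    U ≤ Subgroup.center (SpecialLinearGroup n k) := fun g hg =>
  mem_center_of_conj hC fun x => h ((inferInstance : U.Normal).conj_mem g hg x)

/-- [GF4] A normal subgroup all of whose elements have relatively compact powers is central. -/
theorem normal_le_center_of_locally_bounded [Nontrivial n] (U : Subgroup (SpecialLinearGroup n k))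
    [U.Normal] (h : ∀ g ∈ U, ∃ C : Set (SpecialLinearGroup n k), IsCompact C ∧ ∀ m : ℕ, g ^ m ∈ C) :
    U ≤ Subgroup.center (SpecialLinearGroup n k) := by
  haveI : Infinite k := NontriviallyNormedField.infinite k
  rcases H899.normal_le_center_or_top U with h1 | h1
  · exact h1
  exfalso
  obtain ⟨i, j, hij⟩ := exists_pair_ne n
  obtain ⟨a, ha⟩ := NormedField.exists_lt_norm k 1
  have ha0 : a ≠ 0 := norm_pos_iff.1 (lt_trans zero_lt_one ha)
  obtain ⟨C, hC, hm⟩ := h (diag2n hij a ha0) (by rw [h1]; exact Subgroup.mem_top _)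
  obtain ⟨R, hR0, hR⟩ := exists_bound hC
  obtain ⟨m, hmR⟩ := pow_unbounded_of_one_lt R ha
  have h2 := hR _ (hm m) i i
  have h3 : (((diag2n hij a ha0 : SpecialLinearGroup n k) ^ m : SpecialLinearGroup n k) :
      Matrix n n k) i i = a ^ m := by
    rw [coe_pow, diag2n_coe, Matrix.diagonal_pow, Matrix.diagonal_apply_eq]
    simp [hij]
  rw [h3, norm_pow] at h2
  linarith

end normed

end Vale.Agent.P092.H971
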