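import Vale.Agent.P092.H971.Ricc
import Vale.Agent.P092.SR.BlocksR
import Vale.Agent.P092.H793.Irr

/-!
P092 (helper971): `SR.Plc` for lattices in finite products with dense projections to the factors.
-/

set_option linter.all false

namespace Vale.Agent.P092.H971

open Topology MeasureTheory Set Filter
open Vale.Agent.P092.H515.St

section split

variable {I : Type} [DecidableEq I] (G : I → Type) [∀ i, Group (G i)] (i j : I) (hij : i ≠ j)

/-- A product splits off two factors. -/
def splitE : (∀ l, G l) ≃* (G i × G j) × (∀ l : {l : I // l ≠ i ∧ l ≠ j}, G l) where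
  toFun x := ((x i, x j), fun l => x l)
  invFun y := fun l => if h : l = i then h ▸ y.1.1 else if h' : l = j then h' ▸ y.1.2 else
    y.2 ⟨l, h, h'⟩
  left_inv x := by
    funext l
    by_cases h : l = i
    · subst h; simp
    · by_cases h' : l = j
      · subst h'; simp [h]
      · simp [h, h']
  right_inv y := by
    have hji : j ≠ i := hij.symm
    refine Prod.ext (Prod.ext ?_ ?_) ?_
    · simp
    · simp [hji]
    · funext l
      simp [l.2.1, l.2.2]
  map_mul' x y := rfl

variable [∀ i, TopologicalSpace (G i)]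

theorem continuous_splitE : Continuous (splitE G i j hij) := by
  change Continuous fun x : ∀ l, G l => ((x i, x j), fun l : {l : I // l ≠ i ∧ l ≠ j} => x l)
  fun_prop

theorem continuous_splitE_symm : Continuous (splitE G i j hij).symm := by
  refine continuous_pi fun l => ?_
  by_cases h : l = i
  · subst h
    have : (fun y : (G l × G j) × (∀ l' : {l' : I // l' ≠ l ∧ l' ≠ j}, G l') =>
        (splitE G l j hij).symm y l) = fun y => y.1.1 := by
      funext y
      simp [splitE]
    rw [this]; fun_prop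
  · by_cases h' : l = j
    · subst h'
      have : (fun y : (G i × G l) × (∀ l' : {l' : I // l' ≠ i ∧ l' ≠ l}, G l') =>
          (splitE G i l hij).symm y l) = fun y => y.1.2 := by
        funext y
        simp [splitE, h]
      rw [this]; fun_prop
    · have : (fun y : (G i × G j) × (∀ l' : {l' : I // l' ≠ i ∧ l' ≠ j}, G l') =>
          (splitE G i j hij).symm y l) = fun y => y.2 ⟨l, h, h'⟩ := by
        funext y
        simp [splitE, h, h']
      rw [this]; fun_prop

end split

section equiv

/-- Lattices are transported by topological isomorphisms. -/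
theorem isLattice_equiv {E E' : Type} [Group E] [TopologicalSpace E] [IsTopologicalGroup E]
    [T2Space E] [Group E'] [TopologicalSpace E'] [IsTopologicalGroup E'] [T1Space E']
    [LocallyCompactSpace E'] (e : E ≃* E') (he : Continuous e) (he' : Continuous e.symm)
    {Λ : Subgroup E} (h : IsLattice Λ) : IsLattice (Λ.map (e : E →* E')) := by
  have := h.disc
  refine H793.lattice_map _ he e.surjective h (H793.discrete_map _ (fun C hC => ?_) _)
  have : ((e : E →* E') : E → E') ⁻¹' C = e.symm '' C := by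
    ext x
    constructor
    · intro hx; exact ⟨_, hx, by simp⟩
    · rintro ⟨y, hy, rfl⟩; simpa using hy
  rw [this]
  exact hC.image he'

end equiv

section abs

variable {I : Type} [Finite I] {G : I → Type} [∀ i, Group (G i)] [∀ i, TopologicalSpace (G i)]
  [∀ i, IsTopologicalGroup (G i)] [∀ i, T2Space (G i)] [∀ i, SecondCountableTopology (G i)]
  [∀ i, LocallyCompactSpace (G i)] {Γ : Type} [Group Γ]

/-- Slices: the image of `Γ` in `G i × G j` contains a lattice. -/
theorem latPair (p : ∀ i, Γ →* G i) (hlat : IsLattice (MonoidHom.pi p).range)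
    (hb : ∀ i, ∃ K : Subgroup (G i), SR.COS K) (i j : I) (hij : i ≠ j) :
    SR.LatPair (p i) (p j) := by
  classical
  choose K hK using hb
  have h1 := isLattice_equiv (splitE G i j hij) (continuous_splitE G i j hij)
    (continuous_splitE_symm G i j hij) hlat
  set q₂ : Γ →* (∀ l : {l : I // l ≠ i ∧ l ≠ j}, G l) := MonoidHom.pi fun l => p l with hq₂
  have hr : (MonoidHom.pi p).range.map ((splitE G i j hij : (∀ l, G l) ≃* _) :
      (∀ l, G l) →* (G i × G j) × (∀ l : {l : I // l ≠ i ∧ l ≠ j}, G l)) =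
      (((p i).prod (p j)).prod q₂).range := by
    ext x
    constructor
    · rintro ⟨_, ⟨g, rfl⟩, rfl⟩
      exact ⟨g, rfl⟩
    · rintro ⟨g, rfl⟩
      exact ⟨_, ⟨g, rfl⟩, rfl⟩
  rw [hr] at h1
  let B : Subgroup (∀ l : {l : I // l ≠ i ∧ l ≠ j}, G l) := Subgroup.pi Set.univ fun l => K l
  have hB : (B : Set (∀ l : {l : I // l ≠ i ∧ l ≠ j}, G l)) =
      Set.pi Set.univ fun l : {l : I // l ≠ i ∧ l ≠ j} => (K l : Set (G l)) := rfl
  refine ⟨_, H793.lattice_slice ((p i).prod (p j)) q₂ h1 B ?_ ?_, ?_⟩
  · rw [hB]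
    exact isCompact_univ_pi fun l => (hK l).1
  · rw [hB]
    exact isOpen_set_pi Set.finite_univ fun l _ => (hK l).2
  · exact Subgroup.map_le_range _ _

/-- The places of a lattice. -/
theorem plc_abs (p : ∀ i, Γ →* G i) (hinj : ∀ g, (∀ i, p i g = 1) → g = 1)
    (hlat : IsLattice (MonoidHom.pi p).range) (hd : ∀ i, DenseRange (p i))
    (hb : ∀ i, ∀ U : Set (G i), IsOpen U → (1 : G i) ∈ U → ∃ K : Subgroup (G i), SR.COS K ∧
      (K : Set (G i)) ⊆ U) : SR.Plc p := by
  have hinj' : Function.Injective (MonoidHom.pi p) := by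
    rw [injective_iff_map_eq_one]
    intro g hg
    exact hinj g fun i => congrFun hg i
  have hinj2 : Function.Injective (MonoidHom.pi p).rangeRestrict := fun a b hab =>
    hinj' (congrArg Subtype.val hab)
  have hdisc := hlat.disc
  refine ⟨?_, hd, ?_, fun i j hij => latPair p hlat (fun i => ?_) i j hij⟩
  · have : Countable (MonoidHom.pi p).range := H790.countable_of_discrete _
    exact hinj2.countable
  · have h1 : IsOpen ({1} : Set (MonoidHom.pi p).range) := isOpen_discrete _
    obtain ⟨V, hV, hV1⟩ := isOpen_induced_iff.1 h1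
    have h1V : (1 : ∀ i, G i) ∈ V := by
      have : (1 : (MonoidHom.pi p).range) ∈ Subtype.val ⁻¹' V := by rw [hV1]; rfl
      exact this
    obtain ⟨u, hu, huV⟩ := isOpen_pi_iff'.1 hV 1 h1V
    choose K hK hKu using fun i => hb i (u i) (hu i).1 (hu i).2
    refine ⟨K, hK, fun g hg => ?_⟩
    have h2 : (MonoidHom.pi p).rangeRestrict g ∈ Subtype.val ⁻¹' V := huV fun i _ => hKu i (hg i)
    rw [hV1] at h2
    refine hinj2 ?_
    rw [map_one]; exact h2
  · obtain ⟨K, hK, -⟩ := hb i Set.univ isOpen_univ (mem_univ _)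
    exact ⟨K, hK⟩

end abs

section quot

variable {I : Type} [Finite I] {A : I → Type} [∀ i, Group (A i)] [∀ i, TopologicalSpace (A i)]
  [∀ i, IsTopologicalGroup (A i)] [∀ i, T2Space (A i)] [∀ i, SecondCountableTopology (A i)]
  [∀ i, LocallyCompactSpace (A i)] {Γ : Type} [Group Γ]

/-- Joint injectivity modulo the centres. -/
theorem inj_quot (q : ∀ i, Γ →* A i) (hinj : ∀ g, (∀ i, q i g = 1) → g = 1)
    (hicc : ∀ g : Γ, g ≠ 1 → Set.Infinite {y : Γ | ∃ h, y = h * g * h⁻¹}) :
    ∀ g, (∀ i, (QuotientGroup.mk' (Subgroup.center (A i))).comp (q i) g = 1) → g = 1 := by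
  intro g hg
  by_contra hne
  refine hicc g hne ((Set.finite_singleton g).subset ?_)
  rintro y ⟨h, rfl⟩
  rw [mem_singleton_iff]
  have h1 : h * g * h⁻¹ * g⁻¹ = 1 := by
    refine hinj _ fun i => ?_
    have h2 : q i g ∈ Subgroup.center (A i) := (QuotientGroup.eq_one_iff _).1 (hg i)
    rw [map_mul, map_mul, map_mul, map_inv, (Subgroup.mem_center_iff.1 h2) (q i h)]
    simp
  exact mul_inv_eq_one.1 h1

/-- The lattice modulo compact centres. -/
theorem lat_quot (q : ∀ i, Γ →* A i) (hlat : IsLattice (MonoidHom.pi q).range)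
    (cA : ∀ i, IsCompact (Subgroup.center (A i) : Set (A i))) :
    IsLattice (MonoidHom.pi fun i => (QuotientGroup.mk' (Subgroup.center (A i))).comp (q i)).range := by
  have hcl : ∀ i, IsClosed (Subgroup.center (A i) : Set (A i)) := fun i => (cA i).isClosed
  have := hlat.disc
  set π : (∀ i, A i) →* (∀ i, A i ⧸ Subgroup.center (A i)) :=
    MonoidHom.pi fun i => (QuotientGroup.mk' (Subgroup.center (A i))).comp (Pi.evalMonoidHom A i)
    with hπ
  have hcont : Continuous π := continuous_pi fun i =>
    continuous_quotient_mk'.comp (continuous_apply i)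
  have hr : (MonoidHom.pi q).range.map π =
      (MonoidHom.pi fun i => (QuotientGroup.mk' (Subgroup.center (A i))).comp (q i)).range := by
    ext x
    constructor
    · rintro ⟨_, ⟨g, rfl⟩, rfl⟩
      exact ⟨g, rfl⟩
    · rintro ⟨g, rfl⟩
      exact ⟨_, ⟨g, rfl⟩, rfl⟩
  rw [← hr]
  refine H793.lattice_map π hcont ?_ hlat (H793.discrete_map π (fun C hC => ?_) _)
  · intro x
    choose y hy using fun i => QuotientGroup.mk_surjective (x i)
    exact ⟨y, funext hy⟩
  · refine (isCompact_univ_pi fun i => H793.proper_mk _ (cA i) _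
      (hC.image (continuous_apply i))).of_isClosed_subset (hC.isClosed.preimage hcont) ?_
    intro x hx i _
    exact ⟨_, hx, rfl⟩

/-- The projections to the quotients by the centres. -/
theorem plc_quot (q : ∀ i, Γ →* A i) (hinj : ∀ g, (∀ i, q i g = 1) → g = 1)
    (hlat : IsLattice (MonoidHom.pi q).range) (hd : ∀ i, DenseRange (q i))
    (hicc : ∀ g : Γ, g ≠ 1 → Set.Infinite {y : Γ | ∃ h, y = h * g * h⁻¹})
    (cA : ∀ i, IsCompact (Subgroup.center (A i) : Set (A i)))
    (hb : ∀ i, ∀ U : Set (A i ⧸ Subgroup.center (A i)), IsOpen U → 1 ∈ U →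
      ∃ K : Subgroup (A i ⧸ Subgroup.center (A i)), SR.COS K ∧
      (K : Set (A i ⧸ Subgroup.center (A i))) ⊆ U) :
    SR.Plc fun i => (QuotientGroup.mk' (Subgroup.center (A i))).comp (q i) := by
  have hcl : ∀ i, IsClosed (Subgroup.center (A i) : Set (A i)) := fun i => (cA i).isClosed
  refine plc_abs _ (inj_quot q hinj hicc) (lat_quot q hlat cA) (fun i => ?_) hb
  exact (QuotientGroup.mk'_surjective _).denseRange.comp (hd i) continuous_quotient_mk'

/-- Relative ICC modulo the centres. -/
theorem ricc_quot (q : ∀ i, Γ →* A i) (hinj : ∀ g, (∀ i, q i g = 1) → g = 1)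
    (hlat : IsLattice (MonoidHom.pi q).range)
    (hicc : ∀ g : Γ, g ≠ 1 → Set.Infinite {y : Γ | ∃ h, y = h * g * h⁻¹})
    (cA : ∀ i, IsCompact (Subgroup.center (A i) : Set (A i)))
    (hrec : ∀ i, RecG (A i ⧸ Subgroup.center (A i))) (i : I) (hd : DenseRange (q i))
    (hcent : ∀ g : A i ⧸ Subgroup.center (A i), g ≠ 1 → ¬ IsOpen ((Subgroup.centralizer {g} :
      Subgroup (A i ⧸ Subgroup.center (A i))) : Set (A i ⧸ Subgroup.center (A i))))
    {h : Γ} (hh : h ≠ 1) :
    ∀ U ∈ 𝓝 (1 : A i ⧸ Subgroup.center (A i)), {y : Γ | ∃ θ : Γ,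
      (QuotientGroup.mk' (Subgroup.center (A i))).comp (q i) θ ∈ U ∧ y = θ * h * θ⁻¹}.Infinite := by
  intro U hU
  have hcl : ∀ i, IsClosed (Subgroup.center (A i) : Set (A i)) := fun i => (cA i).isClosed
  exact ricc (fun i => (QuotientGroup.mk' (Subgroup.center (A i))).comp (q i))
    (inj_quot q hinj hicc) (lat_quot q hlat cA) hrec i hcent
    ((QuotientGroup.mk'_surjective _).denseRange.comp hd continuous_quotient_mk') hU hh

end quot

end Vale.Agent.P092.H971
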