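import Vale.Agent.P092.H714.Cl3
import Vale.Agent.P092.H899.O4
import Vale.Agent.P092.H515.RkDef
import Vale.Agent.P092.H933.LocF

/-!
P092 (helper971), [QC-CONN]: the classical groups over the archimedean local fields are connected.
-/

set_option linter.all false

namespace Vale.Agent.P092.H971

open Topology Matrix

/-- A subgroup generated by connected sets through `1` is connected. -/
theorem preconnected_closure {E : Type*} [Group E] [TopologicalSpace E] [IsTopologicalGroup E]
    {S : Set E} (h : ∀ g ∈ S, ∃ T : Set E, T ⊆ (Subgroup.closure S : Set E) ∧ 1 ∈ T ∧ g ∈ T ∧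
      IsPreconnected T) : PreconnectedSpace (Subgroup.closure S) := by
  have key : IsPreconnected ((Subgroup.closure S : Subgroup E) : Set E) := by
    refine isPreconnected_of_forall 1 ?_
    intro g hg
    have hg' : g ∈ Subgroup.closure S := hg
    induction hg' using Subgroup.closure_induction with
    | mem x hx => exact h x hx
    | one => exact ⟨{1}, by simp [Subgroup.one_mem], rfl, rfl, isPreconnected_singleton⟩
    | mul x y hx hy ihx ihy =>
      obtain ⟨T, a1, a2, a3, a4⟩ := ihx hx
      obtain ⟨T', b1, b2, b3, b4⟩ := ihy hy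
      refine ⟨(fun p : E × E => p.1 * p.2) '' (T ×ˢ T'), ?_, ⟨(1, 1), ⟨a2, b2⟩, one_mul 1⟩,
        ⟨(x, y), ⟨a3, b3⟩, rfl⟩, (a4.prod b4).image _ continuous_mul.continuousOn⟩
      rintro _ ⟨⟨p, q⟩, ⟨hp, hq⟩, rfl⟩
      exact (Subgroup.closure S).mul_mem (a1 hp) (b1 hq)
    | inv x hx ih =>
      obtain ⟨T, a1, a2, a3, a4⟩ := ih hx
      refine ⟨(fun p : E => p⁻¹) '' T, ?_, ⟨1, a2, inv_one⟩, ⟨x, a3, rfl⟩,
        a4.image _ continuous_inv.continuousOn⟩
      rintro _ ⟨p, hp, rfl⟩
      exact (Subgroup.closure S).inv_mem (a1 hp)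
  exact isPreconnected_iff_preconnectedSpace.1 key

/-- A continuous endomorphism fixes the real scalars. -/
theorem fix_real {k : Type*} [Field k] [TopologicalSpace k] [T2Space k] {ι : ℝ →+* k}
    (hι : Continuous ι) {σ : k →+* k} (hσ : Continuous σ) (t : ℝ) : σ (ι t) = ι t := by
  have h1 : (fun t : ℝ => σ (ι t)) = fun t => ι t := by
    refine Continuous.ext_on (Rat.denseRange_cast (𝕜 := ℝ)) (hσ.comp hι) hι ?_
    rintro _ ⟨q, rfl⟩
    change σ (ι (q : ℝ)) = ι (q : ℝ)
    rw [map_ratCast, map_ratCast]
  exact congrFun h1 t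

/-- The archimedean local fields have continuous real scalars. -/
theorem exists_real_of_real {k : Type} [NontriviallyNormedField k] (φ : k ≃+* ℝ)
    (h : ∀ x, ‖φ x‖ = ‖x‖) : ∃ ι : ℝ →+* k, Continuous ι := by
  refine ⟨(φ.symm : ℝ →+* k), ?_⟩
  refine (AddMonoidHomClass.isometry_of_norm φ.symm fun x => ?_).continuous
  rw [← h, RingEquiv.apply_symm_apply]

theorem exists_real_of_cplx {k : Type} [NontriviallyNormedField k] (φ : k ≃+* ℂ)
    (h : ∀ x, ‖φ x‖ = ‖x‖) : ∃ ι : ℝ →+* k, Continuous ι := by
  refine ⟨(φ.symm : ℂ →+* k).comp Complex.ofRealHom, ?_⟩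
  have h1 : Continuous φ.symm := by
    refine (AddMonoidHomClass.isometry_of_norm φ.symm fun x => ?_).continuous
    rw [← h, RingEquiv.apply_symm_apply]
  exact h1.comp Complex.continuous_ofReal

/-- The two cases. -/
theorem real_or_ultra {k : Type} [NontriviallyNormedField k] (h : H933.LocK k) :
    (∃ ι : ℝ →+* k, Continuous ι) ∨ IsUltrametricDist k := by
  cases h with
  | real φ h => exact .inl (exists_real_of_real φ h)
  | cplx φ h => exact .inl (exists_real_of_cplx φ h)
  | ultra h => exact .inr h

theorem real_or_ultra' {k : Type} [NontriviallyNormedField k] (h : H515.St.LocK k) :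
    (∃ ι : ℝ →+* k, Continuous ι) ∨ IsUltrametricDist k := by
  cases h with
  | real φ h => exact .inl (exists_real_of_real φ h)
  | cplx φ h => exact .inl (exists_real_of_cplx φ h)
  | ultra h => exact .inr h

section GT

open Vale.Agent.P092.H714.Cl

variable {n : Type} [Fintype n] [DecidableEq n] {k : Type} [NontriviallyNormedField k]
  {σ : k →+* k} {ε : k} {J : Matrix n n k}

theorem cont_tv (hσc : Continuous σ) {u : n → k} (hu : hf σ J u u = 0) :
    Continuous fun c : k => tv σ J u c := by
  have h1 : Continuous fun c : k => tvm σ J u c :=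
    (continuous_tvm (J := J) hσc).comp (Continuous.prodMk continuous_const continuous_id)
  refine continuous_induced_rng.2 (h1.congr fun c => ?_)
  exact (tv_val hu c).symm

/-- **The groups generated by the transvections are connected** over `ℝ` and `ℂ`. -/
theorem preconnected_GT (hσ : ∀ x, ‖σ x‖ = ‖x‖) {ι : ℝ →+* k} (hι : Continuous ι) :
    PreconnectedSpace (GT σ ε J) := by
  have hσc := continuous_of_norm hσ
  refine preconnected_closure ?_
  rintro g ⟨u, c, hu, hc, rfl⟩
  refine ⟨Set.range fun t : ℝ => tv σ J u (ι t * c), ?_, ⟨0, ?_⟩, ⟨1, ?_⟩,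
    isPreconnected_range ((cont_tv hσc hu).comp (hι.mul continuous_const))⟩
  · rintro _ ⟨t, rfl⟩
    refine tv_mem_GT hu ?_
    rw [map_mul, fix_real hι hσc]
    linear_combination (ι t) * hc
  · simp [tv_zero]
  · simp

end GT

section Om

open Vale.Agent.P092.H899.Ort

variable {n : Type} [Fintype n] [DecidableEq n] {k : Type} [NontriviallyNormedField k]

theorem cont_psiM {K : Matrix n n k} {ι : ℝ →+* k} (hι : Continuous ι) (u w : n → k) :
    Continuous fun t : ℝ => psiM K u (ι t • w) := by
  have hw : Continuous fun t : ℝ => ι t • w := hι.smul continuous_const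
  have h1 : Continuous fun t : ℝ => K *ᵥ (ι t • w) := Continuous.matrix_mulVec continuous_const hw
  have h2 : Continuous fun t : ℝ => bf K (ι t • w) (ι t • w) := by
    simp only [bf_apply]
    exact Continuous.dotProduct hw h1
  unfold psiM
  refine (continuous_const.add (Continuous.matrix_vecMulVec hw continuous_const)).sub ?_
  refine Continuous.matrix_vecMulVec continuous_const ?_
  exact h1.add ((continuous_const.mul h2).smul continuous_const)

/-- **The groups generated by the Siegel transformations are connected** over `ℝ` and `ℂ`. -/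
theorem preconnected_Om {K : Matrix n n k} (hK : Kᵀ = K) {ι : ℝ →+* k} (hι : Continuous ι) :
    PreconnectedSpace (Om K) := by
  refine preconnected_closure ?_
  rintro g ⟨u, w, hu, hw, hg⟩
  have hw' : ∀ t : ℝ, bf K u (ι t • w) = 0 := fun t => by rw [map_smul, hw, smul_zero]
  refine ⟨Set.range fun t : ℝ =>
    (⟨psiM K u (ι t • w), det_psiM hK hu (hw' t)⟩ : SpecialLinearGroup n k), ?_, ⟨0, ?_⟩, ⟨1, ?_⟩,
    isPreconnected_range ?_⟩
  · rintro _ ⟨t, rfl⟩
    exact Subgroup.subset_closure ⟨u, ι t • w, hu, hw' t, rfl⟩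
  · refine Subtype.ext ?_
    change psiM K u (ι 0 • w) = 1
    rw [map_zero, zero_smul]
    simp [psiM]
  · refine Subtype.ext ?_
    change psiM K u (ι 1 • w) = g.1
    rw [map_one, one_smul, hg]
  · exact Continuous.subtype_mk (cont_psiM hι u w) _

end Om

end Vale.Agent.P092.H971
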