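import Vale.Agent.P092.H971.GSL
import Vale.Agent.P092.H136.Conj
import Vale.Agent.P092.SR.Defs
import Vale.Agent.P092.H432.TA.Defs

/-!
P092 (helper971): `SL_N(k)` modulo its centre is a good factor for project B, and the group input of
Theorem A for a dense homomorphism to a good factor.
-/

set_option linter.all false

namespace Vale.Agent.P092.H971

open Matrix Matrix.SpecialLinearGroup Topology Pointwise
open Vale.Agent.P092.H933 Vale.Agent.P092.SR

section good

variable {H : Type} [Group H] [TopologicalSpace H]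

theorem GoodGrp.center (G : GoodGrp H) : Subgroup.center H = ⊥ := by
  refine (Subgroup.eq_bot_iff_forall _).2 fun g hg => ?_
  by_contra h
  refine G.cent g h ?_
  have : (Subgroup.centralizer {g} : Subgroup H) = ⊤ := by
    refine top_le_iff.1 fun x _ => ?_
    rw [Subgroup.mem_centralizer_iff]
    rintro _ rfl
    exact (Subgroup.mem_center_iff.1 hg x).symm
  rw [this]; exact isOpen_univ

theorem GoodGrp.gfacts (G : GoodGrp H) : GFacts H where
  basis := fun W hW => by
    haveI := G.top
    obtain ⟨U, hUW, hU, h1⟩ := mem_nhds_iff.1 hW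
    obtain ⟨K, hK, hKU⟩ := G.basis U hU h1
    exact ⟨K, hK.2, hK.1, hKU.trans hUW⟩
  cpt := G.proper
  nrm := G.open_normal
  cptn := fun U hn hU => by
    rw [G.bdd_normal U hn fun g hg => ⟨U, hU, fun m => U.pow_mem hg m⟩]
    exact bot_le
  unb := G.hyp
  cen := by rw [GoodGrp.center G]; exact isCompact_singleton
  comm := G.comm_open

/-- The group input of Theorem A for a dense homomorphism to a good factor. -/
theorem gin_good (G : GoodGrp H) {Γ : Type} [Group Γ] {p : Γ →* H} (hp : DenseRange p) :
    H432.TA.GIn {L : Subgroup Γ | ∃ U : Subgroup H, COS U ∧ L = U.comap p} := by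
  haveI := G.top
  haveI := G.sc
  have h := gin (GoodGrp.gfacts G) hp
  have he : cA p = {L : Subgroup Γ | ∃ U : Subgroup H, COS U ∧ L = U.comap p} := by
    ext L
    constructor
    · rintro ⟨U, hU, hUc, -, rfl⟩; exact ⟨U, ⟨hUc, hU⟩, rfl⟩
    · rintro ⟨U, hU, rfl⟩
      exact ⟨U, hU.2, hU.1, by rw [GoodGrp.center G]; exact bot_le, rfl⟩
  rw [← he]
  exact ⟨h.ne, h.inf, h.conj, h.g0, h.g1, h.g2, h.top, h.inf_index, h.g3, h.g5', h.seq⟩

end good

section psl

variable {k : Type} [NontriviallyNormedField k] [IsUltrametricDist k] [ProperSpace k] {N : ℕ}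

/-- The adjoint group. -/
abbrev PSL (N : ℕ) (k : Type) [Field k] : Type :=
  SpecialLinearGroup (Fin N) k ⧸ Subgroup.center (SpecialLinearGroup (Fin N) k)

/-- The projection. -/
abbrev prj (N : ℕ) (k : Type) [Field k] : SpecialLinearGroup (Fin N) k →* PSL N k :=
  QuotientGroup.mk' (Subgroup.center (SpecialLinearGroup (Fin N) k))

theorem prj_surj : Function.Surjective (prj N k) := QuotientGroup.mk'_surjective _

theorem prj_cont : Continuous (prj N k) := QuotientGroup.continuous_mk

theorem prj_open : IsOpenMap (prj N k) := QuotientGroup.isOpenMap_coe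

theorem isClosed_center' : IsClosed (Subgroup.center (SpecialLinearGroup (Fin N) k) :
    Set (SpecialLinearGroup (Fin N) k)) := isCompact_center.isClosed

/-- Preimages of compact sets are relatively compact. -/
theorem exists_compact {C : Set (PSL N k)} (hC : IsCompact C) :
    ∃ D : Set (SpecialLinearGroup (Fin N) k), IsCompact D ∧ ∀ g, prj N k g ∈ C → g ∈ D := by
  let K := cong N k 1 zero_le_one le_rfl
  have hKo : IsOpen (K : Set (SpecialLinearGroup (Fin N) k)) := isOpen_cong one_pos le_rfl
  have hKc : IsCompact (K : Set (SpecialLinearGroup (Fin N) k)) :=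
    isCompact_of_bdd _ (Subgroup.isClosed_of_isOpen _ hKo) (fun g hg => hg.1.bdd le_rfl)
  obtain ⟨t, ht⟩ := hC.elim_finite_subcover
    (fun g : SpecialLinearGroup (Fin N) k => prj N k '' ((fun x => g * x) '' (K : Set _)))
    (fun g => prj_open _ ((isOpenMap_mul_left g) _ hKo))
    (fun x hx => by
      obtain ⟨g, rfl⟩ := prj_surj x
      exact Set.mem_iUnion.2 ⟨g, g, ⟨1, K.one_mem, mul_one g⟩, rfl⟩)
  refine ⟨⋃ g ∈ t, ((fun x => g * x) '' (K : Set _)) *
    (Subgroup.center (SpecialLinearGroup (Fin N) k) : Set (SpecialLinearGroup (Fin N) k)), ?_, ?_⟩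
  · exact t.isCompact_biUnion fun g _ => (hKc.image (continuous_const_mul g)).mul isCompact_center
  · intro g hg
    obtain ⟨a, ha, y, hy, hyg⟩ := Set.mem_iUnion₂.1 (ht hg)
    refine Set.mem_iUnion₂.2 ⟨a, ha, y, hy, y⁻¹ * g, ?_, by group⟩
    exact QuotientGroup.eq.1 hyg

theorem map_comap_prj (U : Subgroup (PSL N k)) : (U.comap (prj N k)).map (prj N k) = U :=
  Subgroup.map_comap_eq_self_of_surjective prj_surj U

theorem comap_open {U : Subgroup (PSL N k)} (hU : IsOpen (U : Set (PSL N k))) :
    IsOpen ((U.comap (prj N k) : Subgroup _) : Set (SpecialLinearGroup (Fin N) k)) :=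
  hU.preimage prj_cont

theorem finite_center : (Subgroup.center (SpecialLinearGroup (Fin N) k) :
    Set (SpecialLinearGroup (Fin N) k)).Finite := by
  by_cases hN : N = 0
  · subst hN
    exact Set.toFinite _
  · have h1 : (Polynomial.nthRootsFinset N (1 : k) : Set k).Finite := Finset.finite_toSet _
    refine Set.Finite.of_finite_image (f := fun g : SpecialLinearGroup (Fin N) k =>
      (g : Matrix (Fin N) (Fin N) k)) (((h1.image (Matrix.scalar (Fin N))).subset ?_))
      (Subtype.val_injective.injOn)
    rintro _ ⟨g, hg, rfl⟩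
    obtain ⟨r, hr, hg⟩ := mem_center_iff.1 hg
    refine ⟨r, ?_, hg⟩
    rw [Fintype.card_fin] at hr
    exact (Polynomial.mem_nthRootsFinset (Nat.pos_of_ne_zero hN) 1).2 hr

/-- `SL_N(k)` modulo its centre is a good factor. -/
theorem good_psl (hN : 2 ≤ N) : GoodGrp (PSL N k) where
  top := inferInstance
  t2 := by
    haveI : IsClosed (Subgroup.center (SpecialLinearGroup (Fin N) k) :
      Set (SpecialLinearGroup (Fin N) k)) := isClosed_center'
    infer_instance
  sc := by
    haveI : SecondCountableTopology k := secondCountable_of_proper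
    haveI : SecondCountableTopology (Matrix (Fin N) (Fin N) k) :=
      inferInstanceAs (SecondCountableTopology (Fin N → Fin N → k))
    haveI : SecondCountableTopology (SpecialLinearGroup (Fin N) k) :=
      (Topology.IsInducing.subtypeVal (Y := Matrix (Fin N) (Fin N) k)).secondCountableTopology
    infer_instance
  basis := fun U hU h1 => by
    obtain ⟨K, hK, hKc, hKU⟩ := (gfacts_SL (k := k) hN).basis (prj N k ⁻¹' U)
      ((hU.preimage prj_cont).mem_nhds (by simpa using h1))
    refine ⟨K.map (prj N k), ⟨?_, ?_⟩, ?_⟩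
    · exact hKc.image prj_cont
    · exact prj_open _ hK
    · rintro _ ⟨x, hx, rfl⟩; exact hKU hx
  nondisc := fun h => by
    have h1 : IsOpen (Subgroup.center (SpecialLinearGroup (Fin N) k) :
        Set (SpecialLinearGroup (Fin N) k)) := by
      have : (Subgroup.center (SpecialLinearGroup (Fin N) k) :
        Set (SpecialLinearGroup (Fin N) k)) = prj N k ⁻¹' {1} := by
        ext g; simp [QuotientGroup.eq_one_iff]
      rw [this]; exact h.preimage prj_cont
    have h2 := (gfacts_SL (k := k) hN).nrm _ inferInstance h1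
    have h3 : IsCompact (Set.univ : Set (SpecialLinearGroup (Fin N) k)) := by
      have := isCompact_center (k := k) (N := N)
      rw [h2] at this; exact this
    exact (gfacts_SL (k := k) hN).ncpt h3
  proper := fun U hU h => by
    have h1 : U.comap (prj N k) ≠ ⊤ := fun h2 => h (by rw [← map_comap_prj U, h2,
      Subgroup.map_top_of_surjective _ prj_surj])
    have h2 := (gfacts_SL (k := k) hN).cpt _ (comap_open hU) h1
    rw [← map_comap_prj U]
    exact h2.image prj_cont
  noncompact := fun h => by
    obtain ⟨D, hD, hDC⟩ := exists_compact h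
    refine (gfacts_SL (k := k) hN).ncpt ?_
    have : (Set.univ : Set (SpecialLinearGroup (Fin N) k)) = D :=
      (Set.eq_univ_of_forall fun g => hDC g (Set.mem_univ _)).symm
    rw [this]; exact hD
  perfect := by
    haveI : Nontrivial (Fin N) := Fin.nontrivial_iff_two_le.2 hN
    haveI : Infinite k := NontriviallyNormedField.infinite k
    have h := H899.commutator_eq_top (n := Fin N) (k := k)
    have h2 : (commutator (SpecialLinearGroup (Fin N) k)).map (prj N k) = commutator (PSL N k) := by
      rw [commutator_def, commutator_def, Subgroup.map_commutator,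
        Subgroup.map_top_of_surjective _ prj_surj]
    rw [← h2, h, Subgroup.map_top_of_surjective _ prj_surj]
  comm_open := fun U hU => by
    have h := H899.isOpen_commutator _ (comap_open hU)
    have h2 : (⁅U.comap (prj N k), U.comap (prj N k)⁆ : Subgroup _).map (prj N k) = ⁅U, U⁆ := by
      rw [Subgroup.map_commutator, map_comap_prj]
    rw [← h2]
    exact prj_open _ h
  open_normal := fun U hn hU => by
    have h := (gfacts_SL (k := k) hN).nrm _ (hn.comap (prj N k)) (comap_open hU)
    rw [← map_comap_prj U, h, Subgroup.map_top_of_surjective _ prj_surj]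
  bdd_normal := fun U hn hU => by
    haveI : Nontrivial (Fin N) := Fin.nontrivial_iff_two_le.2 hN
    haveI := hn.comap (prj N k)
    have h := normal_le_center_of_locally_bounded (U.comap (prj N k)) (fun g hg => by
      obtain ⟨C, hC, hm⟩ := hU _ hg
      obtain ⟨D, hD, hDC⟩ := exists_compact hC
      exact ⟨D, hD, fun m => hDC _ (by rw [map_pow]; exact hm m)⟩)
    refine (Subgroup.eq_bot_iff_forall _).2 fun x hx => ?_
    obtain ⟨g, rfl⟩ := prj_surj x
    exact (QuotientGroup.eq_one_iff g).2 (h hx)
  hyp := by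
    obtain ⟨g, hg⟩ := (gfacts_SL (k := k) hN).unb
    refine ⟨prj N k g, fun C hC => ?_⟩
    obtain ⟨D, hD, hDC⟩ := exists_compact hC
    obtain ⟨m, hm⟩ := hg D hD
    exact ⟨m, fun h => hm (hDC _ (by rw [map_pow]; exact h))⟩
  cent := fun x hx h => by
    obtain ⟨g, rfl⟩ := prj_surj x
    apply hx
    refine (QuotientGroup.eq_one_iff g).2 ?_
    have h1 : IsOpen {y : SpecialLinearGroup (Fin N) k | prj N k y ∈
      Subgroup.centralizer {prj N k g}} := h.preimage prj_cont
    have h2 : IsOpen ((Subgroup.center (SpecialLinearGroup (Fin N) k) :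
        Set (SpecialLinearGroup (Fin N) k)) \ {1})ᶜ :=
      (finite_center.subset Set.diff_subset).isClosed.isOpen_compl
    have h3 : IsOpen {y : SpecialLinearGroup (Fin N) k | g * y * g⁻¹ * y⁻¹ ∈
      ((Subgroup.center (SpecialLinearGroup (Fin N) k) :
        Set (SpecialLinearGroup (Fin N) k)) \ {1})ᶜ} := h2.preimage (by fun_prop)
    refine mem_center_of_nhds ((h1.inter h3).mem_nhds ⟨?_, ?_⟩) ?_
    · show prj N k 1 ∈ (Subgroup.centralizer {prj N k g} : Subgroup (PSL N k))
      rw [map_one]; exact Subgroup.one_mem _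
    · simp
    · rintro y ⟨hy1, hy2⟩
      have h4 : g * y * g⁻¹ * y⁻¹ ∈ Subgroup.center (SpecialLinearGroup (Fin N) k) := by
        rw [← QuotientGroup.eq_one_iff]
        have h5 := Subgroup.mem_centralizer_iff.1 hy1 _ rfl
        show prj N k (g * y * g⁻¹ * y⁻¹) = 1
        rw [map_mul, map_mul, map_mul, map_inv, map_inv, h5]; group
      have h6 : g * y * g⁻¹ * y⁻¹ = 1 := by
        by_contra h7
        exact hy2 ⟨h4, h7⟩
      calc g * y = (g * y * g⁻¹ * y⁻¹) * (y * g) := by group
        _ = y * g := by rw [h6, one_mul]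
  recur := fun z hz => by
    obtain ⟨h, f, q, hf, hq, hx, h0⟩ := H136.rec_psl (k := k) (n := Fin N) z hz
    have hq0 : 0 < q := lt_trans zero_lt_one hq
    have hs : 0 < Real.sqrt q := Real.sqrt_pos.2 hq0
    have hss : Real.sqrt q * Real.sqrt q = q := Real.mul_self_sqrt hq0.le
    have hs1 : 1 < Real.sqrt q := by
      rw [← Real.sqrt_one]; exact Real.sqrt_lt_sqrt zero_le_one hq
    have hpow : ∀ (m : ℕ) x, f (h ^ m * x * (h ^ m)⁻¹) = q ^ m * f x := by
      intro m
      induction m with
      | zero => intro x; simp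
      | succ m ih =>
        intro x
        have : h ^ (m + 1) * x * (h ^ (m + 1))⁻¹ = h * (h ^ m * x * (h ^ m)⁻¹) * h⁻¹ := by
          rw [pow_succ']; group
        rw [this, hx, ih, pow_succ']; ring
    refine ⟨f ⁻¹' (Set.Ioo (f z / Real.sqrt q) (f z * Real.sqrt q)),
      (isOpen_Ioo.preimage hf).mem_nhds ⟨?_, ?_⟩, fun m => h ^ m, ?_⟩
    · rw [div_lt_iff₀ hs]; nlinarith
    · nlinarith
    · have key : ∀ i j : ℕ, i < j → ∀ x y : PSL N k,
          x ∈ f ⁻¹' (Set.Ioo (f z / Real.sqrt q) (f z * Real.sqrt q)) →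
          y ∈ f ⁻¹' (Set.Ioo (f z / Real.sqrt q) (f z * Real.sqrt q)) →
          q ^ i * f x < q ^ j * f y := by
        intro i j hij x y hx hy
        have h1 : f x < f z * Real.sqrt q := hx.2
        have h2 : f z < f y * Real.sqrt q := (div_lt_iff₀ hs).1 hy.1
        have h3 : f x < q * f y := by
          calc f x < f z * Real.sqrt q := h1
            _ < (f y * Real.sqrt q) * Real.sqrt q := mul_lt_mul_of_pos_right h2 hs
            _ = q * f y := by rw [mul_assoc, hss, mul_comm]
        have h4 : 0 < f y := by nlinarith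
        have h5 : q ^ (i + 1) ≤ q ^ j := pow_le_pow_right₀ hq.le hij
        calc q ^ i * f x < q ^ i * (q * f y) := mul_lt_mul_of_pos_left h3 (pow_pos hq0 i)
          _ = q ^ (i + 1) * f y := by ring
          _ ≤ q ^ j * f y := mul_le_mul_of_nonneg_right h5 h4.le
      intro i j hij
      rw [Set.disjoint_left]
      rintro _ ⟨x, hx', rfl⟩ ⟨y, hy', hxy⟩
      have h1 : q ^ j * f y = q ^ i * f x := by
        rw [← hpow, ← hpow]; exact congrArg f hxy
      rcases lt_or_gt_of_ne hij with h2 | h2
      · exact absurd h1 (key i j h2 x y hx' hy').ne'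
      · exact absurd h1 (key j i h2 y x hy' hx').ne

end psl

end Vale.Agent.P092.H971
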