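import Vale.Agent.P092.H971.PSL
import Vale.Agent.P092.SR.Blocks

/-!
P092 (helper971): block [GF] of `SR/Blocks.lean`.
-/

set_option linter.all false

namespace Vale.Agent.P092.H971

theorem gfStmt : SR.GFStmt := by
  intro n k _ _ _ h
  exact good_psl h

end Vale.Agent.P092.H971
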