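import Vale.Agent.P092.H971.PlcAbs
import Vale.Agent.P092.H971.GFS
import Vale.Agent.P092.SR.Main

/-!
P092 (helper971): places and relative ergodicity for lattices in finite products of groups
`SL_n(k)` (reducible lattices allowed).
-/

set_option linter.all false

namespace Vale.Agent.P092.H971

open Topology MeasureTheory Set Filter Matrix
open Vale.Agent.P092.H515.St Vale.Agent.P092.H160

section

variable {I : Type} [Finite I] {n : I → ℕ} {k : I → Type} [∀ i, NontriviallyNormedField (k i)]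

/-- the projection of `Γ ≤ ∏ SL_{n i}(k i)` to the factor `i` -/
def pj (Γ : Subgroup (∀ i, SpecialLinearGroup (Fin (n i)) (k i))) (i : I) :
    Γ →* SpecialLinearGroup (Fin (n i)) (k i) :=
  (Pi.evalMonoidHom (fun i => SpecialLinearGroup (Fin (n i)) (k i)) i).comp Γ.subtype

/-- the projection modulo the centre -/
def pjq (Γ : Subgroup (∀ i, SpecialLinearGroup (Fin (n i)) (k i))) (i : I) :
    Γ →* SR.PSLk (n i) (k i) :=
  (QuotientGroup.mk' (Subgroup.center (SpecialLinearGroup (Fin (n i)) (k i)))).comp (pj Γ i)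

theorem pi_pj (Γ : Subgroup (∀ i, SpecialLinearGroup (Fin (n i)) (k i))) :
    (MonoidHom.pi (pj Γ)).range = Γ := by
  ext x
  constructor
  · rintro ⟨g, rfl⟩
    exact g.2
  · intro hx
    exact ⟨⟨x, hx⟩, rfl⟩

theorem pj_inj (Γ : Subgroup (∀ i, SpecialLinearGroup (Fin (n i)) (k i))) :
    ∀ g, (∀ i, pj Γ i g = 1) → g = 1 := fun g hg => Subtype.ext (funext hg)

theorem lc_sl (m : ℕ) (K : Type) [NontriviallyNormedField K] [ProperSpace K] :
    LocallyCompactSpace (SpecialLinearGroup (Fin m) K) := by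
  have : LocallyCompactSpace (Matrix (Fin m) (Fin m) K) :=
    inferInstanceAs (LocallyCompactSpace (Fin m → Fin m → K))
  exact Matrix.SpecialLinearGroup.isClosedEmbedding_val.locallyCompactSpace

theorem sc_sl (m : ℕ) (K : Type) [NontriviallyNormedField K] [ProperSpace K] :
    SecondCountableTopology (SpecialLinearGroup (Fin m) K) := by
  have : SecondCountableTopology (Matrix (Fin m) (Fin m) K) :=
    inferInstanceAs (SecondCountableTopology (Fin m → Fin m → K))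
  exact Matrix.SpecialLinearGroup.isClosedEmbedding_val.isEmbedding.secondCountableTopology

variable [∀ i, ProperSpace (k i)] [∀ i, IsUltrametricDist (k i)]

theorem plc_sl (hn : ∀ i, 2 ≤ n i) (Γ : Subgroup (∀ i, SpecialLinearGroup (Fin (n i)) (k i)))
    (hlat : IsLattice Γ) (hd : ∀ i, DenseRange (pj Γ i))
    (hicc : ∀ g : Γ, g ≠ 1 → Set.Infinite {y : Γ | ∃ h, y = h * g * h⁻¹}) :
    SR.Plc (pjq Γ) := by
  have := fun i => lc_sl (n i) (k i)
  have := fun i => sc_sl (n i) (k i)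
  refine plc_quot (pj Γ) (pj_inj Γ) (by rw [pi_pj]; exact hlat) hd hicc
    (fun i => H793.finite_center.isCompact) fun i => ?_
  exact (gfStmt (n i) (k i) (hn i)).basis

/-- Relative ICC at the place `i`, modulo the centre. -/
theorem ricc_psl (hn : ∀ i, 2 ≤ n i) (Γ : Subgroup (∀ i, SpecialLinearGroup (Fin (n i)) (k i)))
    (hlat : IsLattice Γ) (i : I) (hd : DenseRange (pj Γ i))
    (hicc : ∀ g : Γ, g ≠ 1 → Set.Infinite {y : Γ | ∃ h, y = h * g * h⁻¹}) {h : Γ} (hh : h ≠ 1) :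
    ∀ U ∈ 𝓝 (1 : SR.PSLk (n i) (k i)), {y : Γ | ∃ θ : Γ, pjq Γ i θ ∈ U ∧
      y = θ * h * θ⁻¹}.Infinite := by
  have := fun i => lc_sl (n i) (k i)
  have := fun i => sc_sl (n i) (k i)
  exact ricc_quot (pj Γ) (pj_inj Γ) (by rw [pi_pj]; exact hlat) hicc
    (fun i => H793.finite_center.isCompact) (fun i => (gfStmt (n i) (k i) (hn i)).recur) i hd
    (gfStmt (n i) (k i) (hn i)).cent hh

/-- Relative ICC at the place `i`. -/
theorem ricc_sl (hn : ∀ i, 2 ≤ n i) (Γ : Subgroup (∀ i, SpecialLinearGroup (Fin (n i)) (k i)))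
    (hlat : IsLattice Γ) (i : I) (hd : DenseRange (pj Γ i))
    (hicc : ∀ g : Γ, g ≠ 1 → Set.Infinite {y : Γ | ∃ h, y = h * g * h⁻¹}) {h : Γ} (hh : h ≠ 1)
    (U : Subgroup (SpecialLinearGroup (Fin (n i)) (k i)))
    (hU : IsOpen (U : Set (SpecialLinearGroup (Fin (n i)) (k i)))) :
    {x : Γ | ∃ g ∈ U.comap (pj Γ i), x = g * h * g⁻¹}.Infinite := by
  refine infinite_lift (pj Γ i)
    (QuotientGroup.mk' (Subgroup.center (SpecialLinearGroup (Fin (n i)) (k i))))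
    (QuotientGroup.isOpenMap_coe) ?_ (ricc_psl hn Γ hlat i hd hicc hh) U hU
  rw [QuotientGroup.ker_mk']
  exact H793.finite_center

theorem ricc_psl' (hn : ∀ i, 2 ≤ n i) (Γ : Subgroup (∀ i, SpecialLinearGroup (Fin (n i)) (k i)))
    (hlat : IsLattice Γ) (i : I) (hd : DenseRange (pj Γ i))
    (hicc : ∀ g : Γ, g ≠ 1 → Set.Infinite {y : Γ | ∃ h, y = h * g * h⁻¹}) {h : Γ} (hh : h ≠ 1)
    (U : Subgroup (SR.PSLk (n i) (k i))) (hU : IsOpen (U : Set (SR.PSLk (n i) (k i)))) :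
    {x : Γ | ∃ g ∈ U.comap (pjq Γ i), x = g * h * g⁻¹}.Infinite := by
  refine (ricc_psl hn Γ hlat i hd hicc hh U (hU.mem_nhds U.one_mem)).mono ?_
  rintro y ⟨θ, h1, h2⟩
  exact ⟨θ, h1, h2⟩

end

section erg

/-- Ergodicity from infinite orbits. -/
theorem ergAt_of_orbits (hCom : SR.CommStmt) (hErg : SR.ErgStmt) {Γ Λ : Type} [Group Γ] [Group Λ]
    (α : Γ →* (Ell2 Λ →L[ℂ] Ell2 Λ)) (hα : Frame α)
    (htf : ∀ s : Λ, s ≠ 1 → ∀ n : ℕ, 0 < n → s ^ n ≠ 1) {G : Type} [Group G] [TopologicalSpace G]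
    (p : Γ →* G) (ho : ∀ U : Subgroup G, IsOpen (U : Set G) → ∀ h : Γ, h ≠ 1 →
      {x : Γ | ∃ g ∈ U.comap p, x = g * h * g⁻¹}.Infinite) :
    SR.ErgAt (SR.VV α) (SR.RR₁ α) (SR.RR₂ α) p := by
  intro U hU x hxV hx₁ hx₂
  refine hErg α hα htf (U.comap p) (fun h hh => ho U hU h hh) x ?_ fun g hg => hxV g hg
  intro s t
  rw [SR.tens_split, ← mul_assoc, ((hCom α hα x).1.mp hx₁) s, mul_assoc,
    ((hCom α hα x).2.mp hx₂) t, mul_assoc]

variable {I : Type} [Finite I] {n : I → ℕ} {k : I → Type} [∀ i, NontriviallyNormedField (k i)]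
  [∀ i, ProperSpace (k i)] [∀ i, IsUltrametricDist (k i)]

/-- Ergodicity at every place, for `Λ` torsion-free. -/
theorem ergAt_sl (hCom : SR.CommStmt) (hErg : SR.ErgStmt) (hn : ∀ i, 2 ≤ n i)
    (Γ : Subgroup (∀ i, SpecialLinearGroup (Fin (n i)) (k i)))
    (hlat : IsLattice Γ) (hd : ∀ i, DenseRange (pj Γ i))
    (hicc : ∀ g : Γ, g ≠ 1 → Set.Infinite {y : Γ | ∃ h, y = h * g * h⁻¹}) {Λ : Type} [Group Λ]
    (α : Γ →* (Ell2 Λ →L[ℂ] Ell2 Λ)) (hα : Frame α)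
    (htf : ∀ s : Λ, s ≠ 1 → ∀ n : ℕ, 0 < n → s ^ n ≠ 1) (i : I) :
    SR.ErgAt (SR.VV α) (SR.RR₁ α) (SR.RR₂ α) (pj Γ i) ∧
      SR.ErgAt (SR.VV α) (SR.RR₁ α) (SR.RR₂ α) (pjq Γ i) :=
  ⟨ergAt_of_orbits hCom hErg α hα htf _ fun U hU h hh => ricc_sl hn Γ hlat i (hd i) hicc hh U hU,
    ergAt_of_orbits hCom hErg α hα htf _ fun U hU h hh => ricc_psl' hn Γ hlat i (hd i) hicc hh U hU⟩

end erg

end Vale.Agent.P092.H971
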