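import Mathlib

/-!
P092 (helper971), [GF]: elementary group theory of `SL_n` over a field: generation by
transvections, root subgroups.
-/

set_option linter.all false

namespace Vale.Agent.P092.H971

open Matrix Matrix.SpecialLinearGroup

variable {n : Type} [Fintype n] [DecidableEq n] {F : Type} [Field F]

/-- The elementary matrix. -/
noncomputable abbrev e {i j : n} (h : i ≠ j) (c : F) : SpecialLinearGroup n F :=
  SpecialLinearGroup.transvection h c

theorem e_val {i j : n} (h : i ≠ j) (c : F) :
    ((e h c : SpecialLinearGroup n F) : Matrix n n F) = 1 + single i j c := rfl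

theorem e_mul {i j : n} (h : i ≠ j) (c d : F) : (e h c : SpecialLinearGroup n F) * e h d = e h (c + d) :=
  (transvection_add h c d).symm

theorem e_inv {i j : n} (h : i ≠ j) (c : F) : (e h c : SpecialLinearGroup n F)⁻¹ = e h (-c) :=
  transvection_inv h c

theorem e_zero {i j : n} (h : i ≠ j) : (e h (0 : F) : SpecialLinearGroup n F) = 1 :=
  transvection_coeff_zero h

theorem single_neg' (i j : n) (a : F) : single i j (-a) = -single i j a := by
  rw [← single_neg]

/-- Commutator relation. -/
theorem e_comm {i j l : n} (hij : i ≠ j) (hjl : j ≠ l) (hil : i ≠ l) (a b : F) :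
    (e hij a : SpecialLinearGroup n F) * e hjl b * (e hij a)⁻¹ * (e hjl b)⁻¹ = e hil (a * b) := by
  rw [e_inv, e_inv]
  refine Subtype.ext ?_
  simp only [coe_mul, e_val, add_mul, mul_add, one_mul, mul_one]
  simp only [single_mul_single_same, single_mul_single_of_ne _ _ _ _ hij.symm,
    single_mul_single_of_ne _ _ _ _ hjl.symm, single_mul_single_of_ne _ _ _ _ hil.symm,
    single_neg', mul_neg, neg_mul, add_zero, zero_add, mul_zero, zero_mul, neg_zero, neg_neg]
  abel

/-- The Weyl element. -/
theorem w_val {i j : n} (hij : i ≠ j) (t : F) (ht : t ≠ 0) :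
    ((e hij (-t⁻¹) * e hij.symm t * e hij (-t⁻¹) : SpecialLinearGroup n F) : Matrix n n F) =
      1 - single i i 1 - single j j 1 + single j i t - single i j t⁻¹ := by
  simp only [coe_mul, e_val, add_mul, mul_add, one_mul, mul_one]
  simp only [single_mul_single_same, single_mul_single_of_ne _ _ _ _ hij.symm,
    single_mul_single_of_ne _ _ _ _ hij,
    single_neg', mul_neg, neg_mul, add_zero, zero_add, mul_zero, zero_mul, neg_zero, neg_neg,
    mul_inv_cancel₀ ht, inv_mul_cancel₀ ht, one_mul, mul_one]
  abel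

theorem w_mul_e {i j : n} (hij : i ≠ j) (t : F) (ht : t ≠ 0) (s : F) :
    (e hij (-t⁻¹) * e hij.symm t * e hij (-t⁻¹) : SpecialLinearGroup n F) * e hij s =
      e hij.symm (-(t ^ 2 * s)) * (e hij (-t⁻¹) * e hij.symm t * e hij (-t⁻¹)) := by
  refine Subtype.ext ?_
  rw [coe_mul, w_val hij t ht, coe_mul, w_val hij t ht, e_val, e_val]
  have h1 : t ^ 2 * s * t⁻¹ = t * s := by field_simp
  simp only [add_mul, mul_add, sub_mul, mul_sub, one_mul, mul_one, single_mul_single_same,
    single_mul_single_of_ne _ _ _ _ hij.symm, single_mul_single_of_ne _ _ _ _ hij,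
    single_neg', mul_neg, neg_mul, add_zero, zero_add, mul_zero, zero_mul, neg_zero, neg_neg,
    sub_zero, zero_sub, h1]
  abel

/-- If `V` contains the whole root group `e_ij` and one nontrivial element of `e_ji`, it contains
the opposite root group. -/
theorem opp_mem {V : Subgroup (SpecialLinearGroup n F)} {i j : n} (hij : i ≠ j)
    (h : ∀ s, e hij s ∈ V) {t : F} (ht : t ≠ 0) (h' : e hij.symm t ∈ V) (s : F) :
    e hij.symm s ∈ V := by
  have h1 := w_mul_e hij t ht (-(s / t ^ 2))
  have h2 : -(t ^ 2 * -(s / t ^ 2)) = s := by field_simp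
  rw [h2] at h1
  have h3 : (e hij (-t⁻¹) * e hij.symm t * e hij (-t⁻¹) : SpecialLinearGroup n F) ∈ V :=
    V.mul_mem (V.mul_mem (h _) h') (h _)
  have h4 : e hij.symm s = (e hij (-t⁻¹) * e hij.symm t * e hij (-t⁻¹) : SpecialLinearGroup n F) *
      e hij (-(s / t ^ 2)) * (e hij (-t⁻¹) * e hij.symm t * e hij (-t⁻¹))⁻¹ := by
    rw [h1]; group
  rw [h4]
  exact V.mul_mem (V.mul_mem h3 (h _)) (V.inv_mem h3)

/-- The diagonal elements are products of elementary matrices. -/
theorem diag2n_eq {i j : n} (hij : i ≠ j) (a : F) (ha : a ≠ 0) :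
    (diag2n hij a ha : SpecialLinearGroup n F) =
      (e hij a * e hij.symm (-a⁻¹) * e hij a) *
      (e hij (-1) * e hij.symm 1 * e hij (-1)) := by
  have hb : (-a⁻¹ : F) ≠ 0 := neg_ne_zero.2 (inv_ne_zero ha)
  have h1 := w_val (n := n) hij (-a⁻¹) hb
  have h2 := w_val (n := n) hij (1 : F) one_ne_zero
  have h3 : -(-a⁻¹ : F)⁻¹ = a := by rw [inv_neg, neg_neg, inv_inv]
  rw [h3] at h1
  have h4 : (-a⁻¹ : F)⁻¹ = -a := by rw [inv_neg, inv_inv]
  rw [h4] at h1
  rw [inv_one] at h2
  refine Subtype.ext ?_
  rw [coe_mul, h1, h2, diag2n_coe]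
  simp only [add_mul, mul_add, sub_mul, mul_sub, one_mul, mul_one, single_mul_single_same,
    single_mul_single_of_ne _ _ _ _ hij.symm, single_mul_single_of_ne _ _ _ _ hij,
    single_neg', mul_neg, neg_mul, add_zero, zero_add, mul_zero, zero_mul, neg_zero, neg_neg,
    sub_zero, zero_sub]
  ext x y
  simp only [Matrix.diagonal_apply, Matrix.add_apply, Matrix.sub_apply, Matrix.neg_apply,
    Matrix.one_apply, Matrix.single_apply]
  by_cases hxy : x = y
  · subst hxy
    by_cases hx : x = i
    · subst hx
      simp [hij, hij.symm]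
    · by_cases hx' : x = j
      · subst hx'
        simp [hij, hij.symm]
      · simp [hx, hx', Ne.symm hx, Ne.symm hx', eq_comm]
  · by_cases hx : x = i
    · subst hx
      have : ¬ (y = x) := fun h => hxy h.symm
      by_cases hy : y = j
      · subst hy
        simp [hij, hij.symm]
      · simp [hij, hij.symm, hxy, this, hy, Ne.symm hy, eq_comm]
    · by_cases hx' : x = j
      · subst hx'
        by_cases hy : y = i
        · subst hy
          simp [hij, hij.symm]
        · simp [hij, hij.symm, hxy, Ne.symm hxy, hy, Ne.symm hy]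
      · simp [hxy, Ne.symm hxy, hx, hx', Ne.symm hx, Ne.symm hx']

/-- `SL_n` of a field is generated by the elementary matrices. -/
theorem eq_top_of_e [Nontrivial n] {V : Subgroup (SpecialLinearGroup n F)}
    (h : ∀ (i j : n) (hij : i ≠ j) (s : F), e hij s ∈ V) : V = ⊤ := by
  refine le_antisymm le_top fun M _ => ?_
  refine diagonal_transvection_induction' (fun M => M ∈ V) M ?_ (fun i j hij a => h i j hij a)
    (fun A B => V.mul_mem)
  intro i j hij c hc
  rw [diag2n_eq hij c hc]
  exact V.mul_mem (V.mul_mem (V.mul_mem (h _ _ _ _) (h _ _ _ _)) (h _ _ _ _))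
    (V.mul_mem (V.mul_mem (h _ _ _ _) (h _ _ _ _)) (h _ _ _ _))

end Vale.Agent.P092.H971
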