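import Vale.Agent.P092.H971.Wn
import Vale.Agent.P092.H971.PlcAbs
import Vale.Agent.P092.H859.LatQ
import Vale.Agent.P092.H259.Grp
import Vale.Agent.P092.Q.Canon

/-!
P092 (helper971), [Q-GRP] for any family of factors.
-/

set_option linter.all false

open MeasureTheory Filter Topology
open Vale.Agent.P092.H515.St

namespace Vale.Agent.P092.H971

open Vale.Agent.P092.SR
open Vale.Agent.P092.H259 (PQ pq)

/-- **[Q-GRP] for a family of factors.** -/
theorem grp_fam {Γ I : Type} [Group Γ] [Fintype I] {E : I → Type} [∀ i, Group (E i)]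
    [∀ i, TopologicalSpace (E i)] [∀ i, IsTopologicalGroup (E i)] [∀ i, LocallyCompactSpace (E i)]
    [∀ i, SecondCountableTopology (E i)] [∀ i, T2Space (E i)] [∀ i, MeasurableSpace (PQ (E i))]
    [∀ i, BorelSpace (PQ (E i))] (hfac : ∀ i, PA.FacS (PQ (E i)))
    (cA : ∀ i, IsCompact (Subgroup.center (E i) : Set (E i))) (q : ∀ i, Γ →* E i)
    (hinj : ∀ g, (∀ i, q i g = 1) → g = 1) (hlat : IsLattice (MonoidHom.pi q).range)
    (hd : ∀ i, DenseRange (q i))
    (hicc : ∀ g : Γ, g ≠ 1 → Set.Infinite {y : Γ | ∃ h, y = h * g * h⁻¹}) :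
    ∃ m, Q.Grp (fun i => (pq (E i)).comp (q i)) m := by
  have a0 := fun i => (hfac i).top
  have a1 := fun i => (hfac i).lc
  have a2 := fun i => (hfac i).sc
  have a3 := fun i => (hfac i).t2
  have hL : IsLattice (MonoidHom.pi fun i => (pq (E i)).comp (q i)).range := lat_quot q hlat cA
  have hi : ∀ g, (∀ i, (pq (E i)).comp (q i) g = 1) → g = 1 := inj_quot q hinj hicc
  obtain ⟨m, hm⟩ := H859.exists_lat (MonoidHom.pi fun i => (pq (E i)).comp (q i)) (by
    rw [injective_iff_map_eq_one]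
    intro g hg
    exact hi g fun i => congrFun hg i) ⟨hL.disc, hL.covol⟩
  refine ⟨m, hm, hfac, fun i => ?_, fun i l hil => ?_, hi⟩
  · exact (QuotientGroup.mk'_surjective _).denseRange.comp (hd i) continuous_quotient_mk'
  · obtain ⟨w, h1, h2⟩ := exists_esc (fun i => (pq (E i)).comp (q i)) hL l (hfac l).nc
    exact ⟨w, h1 i hil, h2⟩

/-- The projections of a subgroup of a product. -/
def sj {I : Type} {E : I → Type} [∀ i, Group (E i)] (Γ : Subgroup (∀ i, E i)) (i : I) : Γ →* E i :=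
  (Pi.evalMonoidHom E i).comp Γ.subtype

theorem pi_sj {I : Type} {E : I → Type} [∀ i, Group (E i)] (Γ : Subgroup (∀ i, E i)) :
    (MonoidHom.pi (sj Γ)).range = Γ := by
  ext x
  constructor
  · rintro ⟨g, rfl⟩
    exact g.2
  · intro hx
    exact ⟨⟨x, hx⟩, rfl⟩

theorem sj_inj {I : Type} {E : I → Type} [∀ i, Group (E i)] (Γ : Subgroup (∀ i, E i)) :
    ∀ g : Γ, (∀ i, sj Γ i g = 1) → g = 1 := by
  intro g hg
  exact Subtype.ext (funext hg)

/-- Subgroup form. -/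
theorem grp_sub {I : Type} [Fintype I] {E : I → Type} [∀ i, Group (E i)]
    [∀ i, TopologicalSpace (E i)] [∀ i, IsTopologicalGroup (E i)] [∀ i, LocallyCompactSpace (E i)]
    [∀ i, SecondCountableTopology (E i)] [∀ i, T2Space (E i)] [∀ i, MeasurableSpace (PQ (E i))]
    [∀ i, BorelSpace (PQ (E i))] (hfac : ∀ i, PA.FacS (PQ (E i)))
    (hc : ∀ i, Finite (Subgroup.center (E i))) (Γ : Subgroup (∀ i, E i)) (hlat : IsLattice Γ)
    (hd : ∀ i, DenseRange (sj Γ i))
    (hicc : ∀ g : Γ, g ≠ 1 → Set.Infinite {y : Γ | ∃ h, y = h * g * h⁻¹}) :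
    ∃ m, Q.Grp (fun i => (pq (E i)).comp (sj Γ i)) m :=
  grp_fam hfac (fun i => (Set.toFinite (Subgroup.center (E i) : Set (E i))).isCompact) (sj Γ)
    (sj_inj Γ) (by rw [pi_sj]; exact hlat) hd hicc

section ricc

variable {Γ I : Type} [Group Γ] [Fintype I] {E : I → Type} [∀ i, Group (E i)]
    [∀ i, TopologicalSpace (E i)] [∀ i, IsTopologicalGroup (E i)] [∀ i, LocallyCompactSpace (E i)]
    [∀ i, SecondCountableTopology (E i)] [∀ i, T2Space (E i)]

/-- Relative ICC modulo the centres, for a family of factors. -/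
theorem ricc_nhds (hfac : ∀ i, PA.FacS (PQ (E i)))
    (cA : ∀ i, IsCompact (Subgroup.center (E i) : Set (E i))) (q : ∀ i, Γ →* E i)
    (hinj : ∀ g, (∀ i, q i g = 1) → g = 1) (hlat : IsLattice (MonoidHom.pi q).range)
    (hicc : ∀ g : Γ, g ≠ 1 → Set.Infinite {y : Γ | ∃ h, y = h * g * h⁻¹}) (i : I)
    (hd : DenseRange (q i)) {h : Γ} (hh : h ≠ 1) :
    ∀ U ∈ 𝓝 (1 : PQ (E i)), {y : Γ | ∃ θ : Γ, (pq (E i)).comp (q i) θ ∈ U ∧
      y = θ * h * θ⁻¹}.Infinite :=
  ricc_quot q hinj hlat hicc cA (fun i => (hfac i).recu) i hd (hfac i).cent hh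

/-- Relative ICC at the place `i` modulo the centre, open subgroups. -/
theorem ricc_famq (hfac : ∀ i, PA.FacS (PQ (E i)))
    (cA : ∀ i, IsCompact (Subgroup.center (E i) : Set (E i))) (q : ∀ i, Γ →* E i)
    (hinj : ∀ g, (∀ i, q i g = 1) → g = 1) (hlat : IsLattice (MonoidHom.pi q).range)
    (hicc : ∀ g : Γ, g ≠ 1 → Set.Infinite {y : Γ | ∃ h, y = h * g * h⁻¹}) (i : I)
    (hd : DenseRange (q i)) {h : Γ} (hh : h ≠ 1) (U : Subgroup (PQ (E i)))
    (hU : IsOpen (U : Set (PQ (E i)))) :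
    {x : Γ | ∃ g ∈ U.comap ((pq (E i)).comp (q i)), x = g * h * g⁻¹}.Infinite := by
  refine (ricc_nhds hfac cA q hinj hlat hicc i hd hh U (hU.mem_nhds U.one_mem)).mono ?_
  rintro y ⟨θ, h1, h2⟩
  exact ⟨θ, h1, h2⟩

/-- Relative ICC at the place `i`, open subgroups. -/
theorem ricc_fam (hfac : ∀ i, PA.FacS (PQ (E i))) (hc : ∀ i, Finite (Subgroup.center (E i)))
    (q : ∀ i, Γ →* E i)
    (hinj : ∀ g, (∀ i, q i g = 1) → g = 1) (hlat : IsLattice (MonoidHom.pi q).range)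
    (hicc : ∀ g : Γ, g ≠ 1 → Set.Infinite {y : Γ | ∃ h, y = h * g * h⁻¹}) (i : I)
    (hd : DenseRange (q i)) {h : Γ} (hh : h ≠ 1) (U : Subgroup (E i))
    (hU : IsOpen (U : Set (E i))) :
    {x : Γ | ∃ g ∈ U.comap (q i), x = g * h * g⁻¹}.Infinite := by
  refine infinite_lift (q i) (pq (E i)) (QuotientGroup.isOpenMap_coe) ?_
    (ricc_nhds hfac (fun i => (Set.toFinite (Subgroup.center (E i) : Set (E i))).isCompact) q hinj
      hlat hicc i hd hh) U hU
  rw [QuotientGroup.ker_mk']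
  exact Set.toFinite _

end ricc

end Vale.Agent.P092.H971
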