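import Vale.Agent.P092.H971.Wn
import Vale.Agent.P092.H971.PlcAbs
import Vale.Agent.P092.H859.LatQ
import Vale.Agent.P092.PA.FacInst
import Vale.Agent.P092.Q.Final

/-!
P092 (helper971), [Q-GRP]: the group data of project Q.
-/

set_option linter.all false

open MeasureTheory Filter Topology Matrix
open Vale.Agent.P092.H160.St Vale.Agent.P092.H515.St

namespace Vale.Agent.P092.H971

open Vale.Agent.P092.SR

theorem locK_of_st {k : Type} [NontriviallyNormedField k] (h : H515.St.LocK k) : H933.LocK k := by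
  cases h with
  | real φ h => exact .real φ h
  | cplx φ h => exact .cplx φ h
  | ultra h => exact .ultra h

/-- [Q-GRP] -/
theorem grpStmt : Q.GrpStmt := by
  intro I _ n k _ _ _ _ hk hn Γ hlat hd hicc
  have hfac : ∀ i, PA.FacS (PSLk (n i) (k i)) := fun i =>
    PA.facS_psl (locK_of_st (hk i)) (hn i)
  have a1 := fun i => lc_sl (n i) (k i)
  have a2 := fun i => sc_sl (n i) (k i)
  have b1 := fun i => (hfac i).lc
  have b2 := fun i => (hfac i).sc
  have b3 := fun i => (hfac i).t2
  have hcA : ∀ i, IsCompact (Subgroup.center (SpecialLinearGroup (Fin (n i)) (k i)) :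
      Set (SpecialLinearGroup (Fin (n i)) (k i))) := fun i => H793.finite_center.isCompact
  have hL : IsLattice (MonoidHom.pi (pjq Γ)).range :=
    lat_quot (pj Γ) (by rw [pi_pj]; exact hlat) hcA
  have hinj : ∀ g, (∀ i, pjq Γ i g = 1) → g = 1 := inj_quot (pj Γ) (pj_inj Γ) hicc
  obtain ⟨m, hm⟩ := H859.exists_lat (MonoidHom.pi (pjq Γ)) (by
    rw [injective_iff_map_eq_one]
    intro g hg
    exact hinj g fun i => congrFun hg i) ⟨hL.disc, hL.covol⟩
  refine ⟨m, hm, hfac, fun i => ?_, fun i l hil => ?_, hinj⟩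
  · exact (QuotientGroup.mk'_surjective _).denseRange.comp (hd i) continuous_quotient_mk'
  · obtain ⟨w, h1, h2⟩ := exists_esc (pjq Γ) hL l (hfac l).nc
    exact ⟨w, h1 i hil, h2⟩

end Vale.Agent.P092.H971
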