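import Vale.Agent.P092.H971.Borel

/-!
P092 (helper971): the relative ICC property for (possibly reducible) lattices in products with dense
projections to the factors, any local fields.
-/

set_option linter.all false

namespace Vale.Agent.P092.H971

open Topology MeasureTheory Set
open Vale.Agent.P092.H515.St

/-- A finite set of conjugates of `g` under a dense set of an open subgroup forces `g = 1`. -/
theorem eq_one_of_finite_conj {H : Type} [Group H] [TopologicalSpace H] [IsTopologicalGroup H]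
    [T2Space H] (hc : ∀ g : H, g ≠ 1 → ¬ IsOpen ((Subgroup.centralizer {g} : Subgroup H) : Set H))
    (g : H) (S : Set H) (hS : S.Finite) (W D : Set H) (hW : W ∈ 𝓝 (1 : H)) (hD : W ⊆ closure D)
    (h : ∀ x ∈ D, x * g * x⁻¹ ∈ S) : g = 1 := by
  by_contra hne
  apply hc _ hne
  have h1 : ∀ x ∈ W, x * g * x⁻¹ ∈ S := by
    intro x hx
    have hcl : IsClosed {x : H | x * g * x⁻¹ ∈ S} :=
      hS.isClosed.preimage (f := fun x : H => x * g * x⁻¹) (by fun_prop)
    exact closure_minimal (fun x hx => h x hx) hcl (hD hx)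
  set U : Set H := interior W ∩ {x | x * g * x⁻¹ ∈ (S \ {g})ᶜ} with hU
  have hUo : IsOpen U := isOpen_interior.inter
    ((hS.subset diff_subset).isClosed.isOpen_compl.preimage (f := fun x : H => x * g * x⁻¹)
      (by fun_prop))
  have h1U : (1 : H) ∈ U := by
    refine ⟨mem_interior_iff_mem_nhds.2 hW, ?_⟩
    rw [mem_ofPred_eq]
    simp
  refine Subgroup.isOpen_of_mem_nhds _ (g := 1) ?_
  refine Filter.mem_of_superset (hUo.mem_nhds h1U) fun x hx => ?_
  rw [SetLike.mem_coe, Subgroup.mem_centralizer_singleton_iff]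
  have h2 := h1 x (interior_subset hx.1)
  have h3 : x * g * x⁻¹ = g := by
    by_contra hne
    exact hx.2 ⟨h2, hne⟩
  rw [mul_inv_eq_iff_eq_mul] at h3
  exact h3

section gen

variable {Γ H : Type} [Group Γ] [Group H] [TopologicalSpace H] [IsTopologicalGroup H]

/-- Let `p` have dense range, `U` open and symmetric. The elements of `Γ` over the subgroup
generated by `U` are generated by the elements over `U`. -/
theorem mem_closure_of_mem (p : Γ →* H) (hd : DenseRange p) {U : Set H} (hU : IsOpen U)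
    (h1 : (1 : H) ∈ U) (hinv : ∀ x ∈ U, x⁻¹ ∈ U) {w : Γ} (hw : p w ∈ Subgroup.closure U) :
    w ∈ Subgroup.closure (p ⁻¹' U) := by
  set L := Subgroup.closure (p ⁻¹' U) with hL
  have h2 : U ⊆ closure (L.map p : Set H) := by
    intro x hx
    refine closure_mono ?_ (hd.open_subset_closure_inter hU hx)
    rintro _ ⟨hy, γ, rfl⟩
    exact ⟨γ, Subgroup.subset_closure hy, rfl⟩
  have h3 : Subgroup.closure U ≤ (L.map p).topologicalClosure := by
    rw [Subgroup.closure_le]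
    exact h2
  have h4 : p w ∈ closure (L.map p : Set H) := h3 hw
  have h5 : IsOpen {x : H | (x : H)⁻¹ * p w ∈ U} := hU.preimage (f := fun x : H => x⁻¹ * p w)
    (by fun_prop)
  obtain ⟨x, hx1, ⟨γ, hγ, rfl⟩⟩ := mem_closure_iff.1 h4 _ h5 (by
    rw [mem_ofPred_eq]; simpa using h1)
  have h6 : γ⁻¹ * w ∈ L := by
    refine Subgroup.subset_closure ?_
    rw [mem_preimage, map_mul, map_inv]
    exact hx1
  have : w = γ * (γ⁻¹ * w) := by group
  rw [this]
  exact L.mul_mem hγ h6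

end gen

section ricc

variable {I : Type} [Finite I] {G : I → Type} [∀ i, Group (G i)] [∀ i, TopologicalSpace (G i)]
  [∀ i, IsTopologicalGroup (G i)] [∀ i, T2Space (G i)] [∀ i, SecondCountableTopology (G i)]
  {Γ : Type} [Group Γ]

/-- **Relative ICC** for lattices of `∏ G i` whose projection to the factor `G i` is dense. -/
theorem ricc (q : ∀ i, Γ →* G i) (hinj : ∀ g, (∀ i, q i g = 1) → g = 1)
    (hlat : IsLattice (MonoidHom.pi q).range) (hrec : ∀ i, RecG (G i)) (i : I)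
    (hcent : ∀ g : G i, g ≠ 1 → ¬ IsOpen ((Subgroup.centralizer {g} : Subgroup (G i)) : Set (G i)))
    (hd : DenseRange (q i)) {U : Set (G i)} (hU : U ∈ 𝓝 (1 : G i)) {h : Γ} (hh : h ≠ 1) :
    {y : Γ | ∃ θ : Γ, q i θ ∈ U ∧ y = θ * h * θ⁻¹}.Infinite := by
  classical
  intro hfin
  apply hh
  -- choose the neighbourhood with the smallest orbit
  let orb : Set (G i) → Set Γ := fun V => {y : Γ | ∃ θ : Γ, q i θ ∈ V ∧ y = θ * h * θ⁻¹}
  have hmono : ∀ {V W : Set (G i)}, V ⊆ W → orb V ⊆ orb W := by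
    rintro V W hVW y ⟨θ, h1, h2⟩
    exact ⟨θ, hVW h1, h2⟩
  have hex : ∃ m : ℕ, ∃ V ∈ 𝓝 (1 : G i), V ⊆ U ∧ (orb V).ncard = m := ⟨_, U, hU, subset_rfl, rfl⟩
  obtain ⟨V₀, hV₀, hV₀U, hcard⟩ := Nat.find_spec hex
  have hmin : ∀ V ∈ 𝓝 (1 : G i), V ⊆ V₀ → orb V = orb V₀ := by
    intro V hV hVV
    refine Set.eq_of_subset_of_ncard_le (hmono hVV) ?_ (hfin.subset (hmono hV₀U))
    rw [hcard]
    exact Nat.find_min' hex ⟨V, hV, hVV.trans hV₀U, rfl⟩
  -- an open symmetric neighbourhood whose square is in `V₀`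
  obtain ⟨V₁, hV₁o, hV₁1, hV₁i, hV₁⟩ : ∃ V₁ : Set (G i), IsOpen V₁ ∧ 1 ∈ V₁ ∧
      (∀ x ∈ V₁, x⁻¹ ∈ V₁) ∧ ∀ x ∈ V₁, ∀ y ∈ V₁, x * y ∈ V₀ := by
    obtain ⟨V, hVo, hV1, hV⟩ := exists_open_nhds_one_mul_subset hV₀
    refine ⟨V ∩ V⁻¹, hVo.inter hVo.inv, ⟨hV1, by simpa using hV1⟩, ?_, ?_⟩
    · rintro x ⟨h1, h2⟩
      exact ⟨h2, by simpa using h1⟩
    · rintro x ⟨h1, -⟩ y ⟨h2, -⟩
      exact hV (Set.mul_mem_mul h1 h2)
  have hV₁V₀ : V₁ ⊆ V₀ := fun x hx => by simpa using hV₁ x hx 1 hV₁1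
  have horb1 : orb V₁ = orb V₀ := hmin V₁ (hV₁o.mem_nhds hV₁1) hV₁V₀
  have hfin0 : (orb V₀).Finite := hfin.subset (hmono hV₀U)
  -- the orbit is normalised by the elements over `V₁`
  have hn1 : ∀ v : Γ, q i v ∈ V₁ → ∀ y ∈ orb V₀, v * y * v⁻¹ ∈ orb V₀ := by
    intro v hv y hy
    rw [← horb1] at hy
    obtain ⟨θ, h1, rfl⟩ := hy
    refine ⟨v * θ, ?_, by group⟩
    rw [map_mul]
    exact hV₁ _ hv _ h1
  have hn2 : ∀ v ∈ Subgroup.closure (q i ⁻¹' V₁), ∀ y ∈ orb V₀, v * y * v⁻¹ ∈ orb V₀ := by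
    intro v hv
    induction hv using Subgroup.closure_induction with
    | mem x hx => exact hn1 x hx
    | one => intro y hy; simpa using hy
    | mul x y _ _ hx hy =>
      intro z hz
      have : x * y * z * (x * y)⁻¹ = x * (y * z * y⁻¹) * x⁻¹ := by group
      rw [this]
      exact hx _ (hy _ hz)
    | inv x _ hx =>
      intro z hz
      have hinj' : Function.Injective (fun y => x * y * x⁻¹) := by
        intro a b hab
        simpa using hab
      have himg : (fun y => x * y * x⁻¹) '' orb V₀ = orb V₀ := by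
        refine Set.eq_of_subset_of_ncard_le ?_ ?_ hfin0
        · rintro _ ⟨y, hy, rfl⟩
          exact hx y hy
        · rw [Set.ncard_image_of_injective _ hinj']
      rw [← himg] at hz
      obtain ⟨y, hy, rfl⟩ := hz
      have : x⁻¹ * (x * y * x⁻¹) * x⁻¹⁻¹ = y := by group
      simp only [this]
      exact hy
  have hn : ∀ v : Γ, q i v ∈ Subgroup.closure V₁ → ∀ y ∈ orb V₀, v * y * v⁻¹ ∈ orb V₀ := fun v hv =>
    hn2 v (mem_closure_of_mem (q i) hd hV₁o hV₁1 hV₁i hv)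
  have hmem : h ∈ orb V₀ := ⟨1, by rw [map_one]; exact mem_of_mem_nhds hV₀, by group⟩
  refine hinj h fun l => ?_
  by_cases hl : l = i
  · subst hl
    refine eq_one_of_finite_conj hcent (q l h) (q l '' orb V₀) (hfin0.image _) V₁ (V₁ ∩ range (q l))
      (hV₁o.mem_nhds hV₁1) (hd.open_subset_closure_inter hV₁o) ?_
    rintro _ ⟨hx, γ, rfl⟩
    refine ⟨γ * h * γ⁻¹, hn1 γ hx h hmem, by rw [map_mul, map_mul, map_inv]⟩
  · have hO : IsOpen ((Subgroup.closure V₁ : Subgroup (G i)) : Set (G i)) := by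
      refine Subgroup.isOpen_of_mem_nhds _ (g := 1) ?_
      exact Filter.mem_of_superset (hV₁o.mem_nhds hV₁1) Subgroup.subset_closure
    refine finite_normalised (E := ∀ i, G i) hlat (hrec l) (Pi.evalMonoidHom G l)
      (continuous_apply l) ((Subgroup.closure V₁).comap (Pi.evalMonoidHom G i))
      (hO.preimage (continuous_apply i)) ?_ (q l '' orb V₀) (hfin0.image _) ?_ _ ⟨h, hmem, rfl⟩
    · intro g
      refine ⟨Function.update (1 : ∀ j, G j) l g, ?_, ?_⟩
      · change Function.update (1 : ∀ j, G j) l g i ∈ Subgroup.closure V₁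
        rw [Function.update_of_ne (Ne.symm hl)]
        exact Subgroup.one_mem _
      · change Function.update (1 : ∀ j, G j) l g l = g
        rw [Function.update_self]
    · rintro _ ⟨v, rfl⟩ hv _ ⟨y, hy, rfl⟩
      refine ⟨v * y * v⁻¹, hn v hv y hy, ?_⟩
      rw [map_mul, map_mul, map_inv]
      rfl

end ricc

/-! ### Finite index -/

section orbit

variable {Γ : Type} [Group Γ]

/-- A set covered by finitely many left cosets of `Θ` has finite orbits if `Θ` has. -/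
theorem orbit_finite_of_cover (Θ : Subgroup Γ) (L : Set Γ) {κ : Type} [Finite κ] (S : κ → Set Γ)
    (hL : ∀ g ∈ L, ∃ c, g ∈ S c) (hS : ∀ c, ∀ g ∈ S c, ∀ g' ∈ S c, g⁻¹ * g' ∈ Θ) {h : Γ}
    (hf : {x : Γ | ∃ g ∈ Θ, x = g * h * g⁻¹}.Finite) :
    {x : Γ | ∃ g ∈ L, x = g * h * g⁻¹}.Finite := by
  classical
  let r : κ → Γ := fun c => if hc : (S c).Nonempty then hc.some else 1
  refine (Set.finite_iUnion fun c : κ => hf.image fun y => r c * y * (r c)⁻¹).subset ?_
  rintro x ⟨g, hg, rfl⟩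
  obtain ⟨c, hc⟩ := hL g hg
  have hne : (S c).Nonempty := ⟨g, hc⟩
  have hr : r c ∈ S c := by
    simp only [r, hne, dif_pos]
    exact hne.some_mem
  refine mem_iUnion.2 ⟨c, _, ⟨(r c)⁻¹ * g, hS c _ hr _ hc, rfl⟩, ?_⟩
  simp only
  group

/-- The finite index form. -/
theorem infinite_of_relIndex (Θ L : Subgroup Γ) (hi : Θ.relIndex L ≠ 0) {h : Γ}
    (hf : {x : Γ | ∃ g ∈ L, x = g * h * g⁻¹}.Infinite) :
    {x : Γ | ∃ g ∈ Θ, x = g * h * g⁻¹}.Infinite := by
  intro hfin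
  have : Finite (L ⧸ Θ.subgroupOf L) := by
    have h1 : (Θ.subgroupOf L).index ≠ 0 := hi
    have h2 : (Θ.subgroupOf L).FiniteIndex := ⟨h1⟩
    exact Subgroup.finite_quotient_of_finiteIndex
  refine hf (orbit_finite_of_cover Θ (L : Set Γ) (κ := L ⧸ Θ.subgroupOf L)
    (fun c => {g | ∃ hg : g ∈ L, ((⟨g, hg⟩ : L) : L ⧸ Θ.subgroupOf L) = c}) ?_ ?_ hfin)
  · intro g hg
    exact ⟨_, hg, rfl⟩
  · rintro c g ⟨hg, hgc⟩ g' ⟨hg', hgc'⟩
    have h2 := hgc.trans hgc'.symm
    rw [QuotientGroup.eq, Subgroup.mem_subgroupOf] at h2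
    exact h2

/-- Relative ICC passes to a finite cover `A` of `H`. -/
theorem infinite_lift {A H : Type} [Group A] [TopologicalSpace A] [Group H] [TopologicalSpace H]
    (a : Γ →* A) (π : A →* H) (hπ : IsOpenMap π) (hk : (π.ker : Set A).Finite) {h : Γ}
    (hf : ∀ U ∈ 𝓝 (1 : H), {y : Γ | ∃ θ : Γ, π (a θ) ∈ U ∧ y = θ * h * θ⁻¹}.Infinite)
    (U : Subgroup A) (hU : IsOpen (U : Set A)) :
    {x : Γ | ∃ g ∈ U.comap a, x = g * h * g⁻¹}.Infinite := by
  intro hfin
  have h1 : π '' (U : Set A) ∈ 𝓝 (1 : H) := (hπ _ hU).mem_nhds ⟨1, U.one_mem, map_one π⟩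
  have : Finite (π.ker : Set A) := hk
  refine hf _ h1 (orbit_finite_of_cover (U.comap a) {θ | π (a θ) ∈ π '' (U : Set A)}
    (κ := (π.ker : Set A)) (fun z => {θ | (z : A)⁻¹ * a θ ∈ U}) ?_ ?_ hfin)
  · rintro g ⟨u, hu, hug⟩
    refine ⟨⟨a g * u⁻¹, ?_⟩, ?_⟩
    · change a g * u⁻¹ ∈ π.ker
      rw [MonoidHom.mem_ker, map_mul, map_inv, hug, mul_inv_cancel]
    · change (a g * u⁻¹)⁻¹ * a g ∈ U
      have : (a g * u⁻¹)⁻¹ * a g = u := by group
      rw [this]; exact hu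
  · intro z g hg g' hg'
    change a (g⁻¹ * g') ∈ U
    have : a (g⁻¹ * g') = ((z : A)⁻¹ * a g)⁻¹ * ((z : A)⁻¹ * a g') := by
      rw [map_mul, map_inv]; group
    rw [this]
    exact U.mul_mem (U.inv_mem hg) hg'

end orbit

end Vale.Agent.P092.H971
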