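import Vale.Agent.P092.H632.T.Glue
import Vale.Agent.P092.H333.ErgQ
import Vale.Agent.P092.QC.Erg
import Vale.Agent.P092.H962.Tr0
import Vale.Agent.P092.H628.TorGlue

/-!
P092 (helper971), project Q for all amplifications and all classes of factors: ergodicity at a
totally disconnected place `E` with a volume bound.
-/

set_option linter.all false

open scoped InnerProductSpace Topology
open Filter ContinuousLinearMap

namespace Vale.Agent.P092.H971

open Vale.Agent.P092.H160 Vale.Agent.P092.H103 Vale.Agent.P092.H333 Vale.Agent.P092.H962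
open Vale.Agent.P092.H632 (flt flt_up flt_inf flt_conj)
open Vale.Agent.P092.H333.Amp (ErgC ergC_td)
open Vale.Agent.P092.QC (Td)

section grp

variable {Γ E : Type} [Group Γ] [Group E] [TopologicalSpace E] [IsTopologicalGroup E] {p : Γ →* E}

theorem mem_flt (h : Td E) {U : Subgroup E} (hU : IsOpen (U : Set E)) : U.comap p ∈ flt p := by
  obtain ⟨L, h1, h2, h3⟩ := h.basis U (hU.mem_nhds U.one_mem)
  exact ⟨L, h1, h2, Subgroup.comap_mono h3⟩

/-- A basis of open subgroups modulo a normal subgroup. -/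
theorem basis_quot (h : Td E) (Z : Subgroup E) [Z.Normal] :
    ∀ W ∈ 𝓝 (1 : E ⧸ Z), ∃ U : Subgroup (E ⧸ Z), IsOpen (U : Set (E ⧸ Z)) ∧
      (U : Set (E ⧸ Z)) ⊆ W := by
  intro W hW
  have h1 : (QuotientGroup.mk' Z) ⁻¹' W ∈ 𝓝 (1 : E) :=
    (continuous_quotient_mk'.tendsto (1 : E)) (by exact hW)
  obtain ⟨L, h2, h3, h4⟩ := h.basis _ h1
  refine ⟨L.map (QuotientGroup.mk' Z), ?_, ?_⟩
  · rw [Subgroup.coe_map]
    exact QuotientGroup.isOpenMap_coe _ h2
  · rintro _ ⟨x, hx, rfl⟩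
    exact h4 hx

end grp

section af

variable {I Λ Γ : Type} [Group Λ] [Group Γ] [Fintype I]
  {α β γ : Γ → (Ell2 (I × Λ) →L[ℂ] Ell2 (I × Λ))}
  {E : Type} [Group E] [TopologicalSpace E] [IsTopologicalGroup E] {p : Γ →* E}

/-- **No class of finite trace** at a totally disconnected place. -/
theorem noClsT_td (h : Td E) (hα : AF α)
    (hΛ : ∀ s : Λ, s ≠ 1 → Set.Infinite {y : Λ | ∃ h, y = h * s * h⁻¹}) (hp : DenseRange p)
    (ho : ∀ U : Subgroup E, IsOpen (U : Set E) → ∀ g : Γ, g ≠ 1 →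
      Set.Infinite {y : Γ | ∃ k ∈ U.comap p, y = k * g * k⁻¹})
    {U : Subgroup E} (hU : IsOpen (U : Set E)) : NoClsT hα (U.comap p : Set Γ) := by
  obtain ⟨Θ, hΘ, hv⟩ := h.volBd hp
  refine H632.T.noClsT hα hΛ (𝒰 := flt p) (fun U hU S hS => flt_up hU hS)
    (fun U hU U' hU' => flt_inf hU hU') (fun U hU g => flt_conj hU g) ?_ hv (mem_flt h hU)
  rintro S ⟨K, hK, -, hKS⟩ g hg
  refine (ho K hK g hg).mono ?_
  rintro x ⟨k, hk, rfl⟩
  exact ⟨k, hKS hk, rfl⟩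

/-- **Ergodicity of the stripped comultiplication** at a totally disconnected place. -/
theorem ergU_td (h : Td E) (hα : AF α)
    (hΛ : ∀ s : Λ, s ≠ 1 → Set.Infinite {y : Λ | ∃ h, y = h * s * h⁻¹}) (hp : DenseRange p)
    (ho : ∀ U : Subgroup E, IsOpen (U : Set E) → ∀ g : Γ, g ≠ 1 →
      Set.Infinite {y : Γ | ∃ k ∈ U.comap p, y = k * g * k⁻¹})
    {U : Subgroup E} (hU : IsOpen (U : Set E)) : ErgU α (U.comap p : Set Γ) :=
  ergU_of (Θ := U.comap p) hα (fun g hg => ho U hU g hg) (noClsT_td h hα hΛ hp ho hU)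

/-- **Ergodicity of the model** at a totally disconnected place, `Λ` arbitrary, any `t`. -/
theorem ergAt_td (h : Td E) (hα : AF α) (hβ : AF β) (hγ : AF γ)
    (hΛ : ∀ s : Λ, s ≠ 1 → Set.Infinite {y : Λ | ∃ h, y = h * s * h⁻¹}) (hp : DenseRange p)
    (ho : ∀ U : Subgroup E, IsOpen (U : Set E) → ∀ g : Γ, g ≠ 1 →
      Set.Infinite {y : Γ | ∃ k ∈ U.comap p, y = k * g * k⁻¹}) :
    SR.ErgAt (V3 hα hβ hγ) (A3R hα hβ hγ) (B3R hα hβ hγ) p :=
  ergAt_HH hΛ hα hβ hγ fun U hU => ergU_td h hα hΛ hp ho hU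

/-- **`ErgC` of the model** at the place `E` modulo a normal subgroup. -/
theorem ergC_td_quot (h : Td E)
    (hΓ : ∀ g : Γ, g ≠ 1 → Set.Infinite {y : Γ | ∃ h, y = h * g * h⁻¹})
    (hα : AF α) (hβ : AF β) (hγ : AF γ)
    (hΛ : ∀ s : Λ, s ≠ 1 → Set.Infinite {y : Λ | ∃ h, y = h * s * h⁻¹}) (hp : DenseRange p)
    (ho : ∀ U : Subgroup E, IsOpen (U : Set E) → ∀ g : Γ, g ≠ 1 →
      Set.Infinite {y : Γ | ∃ k ∈ U.comap p, y = k * g * k⁻¹}) (Z : Subgroup E) [Z.Normal] :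
    ErgC ((QuotientGroup.mk' Z).comp p) (V3 hα hβ hγ) (A3R hα hβ hγ) (B3R hα hβ hγ) := by
  obtain ⟨m, m', ξ, hT⟩ := exists_tri hα hβ hγ hΛ
  obtain ⟨n, n', ξ', hT'⟩ := exists_tri' hα hβ hγ hΛ
  refine ergC_td hT (tr0 hΓ hT hT') (basis_quot h Z) ?_
  exact H628.ErgAt.comp (ergAt_td h hα hβ hγ hΛ hp ho) _ continuous_quotient_mk'

end af

end Vale.Agent.P092.H971
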