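import Vale.Agent.P092.H793.Lat

/-!
P092 (helper971): a finite subset of a recurrent group which is normalised by the image of a lattice
(or of the part of a lattice in an open subgroup) is trivial (Borel density for centralisers).
-/

set_option linter.all false

namespace Vale.Agent.P092.H971

open Topology MeasureTheory Set
open Vale.Agent.P092.H515.St
open scoped ENNReal

/-- Recurrence of conjugation. -/
def RecG (G : Type) [Group G] [TopologicalSpace G] : Prop :=
  ∀ z : G, z ≠ 1 → ∃ W ∈ 𝓝 z, ∃ a : ℕ → G, Pairwise fun i j =>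
    Disjoint ((fun y => a i * y * (a i)⁻¹) '' W) ((fun y => a j * y * (a j)⁻¹) '' W)

section

variable {E G : Type} [Group E] [TopologicalSpace E] [IsTopologicalGroup E] [Group G]
  [TopologicalSpace G] [IsTopologicalGroup G]

/-- The points `x Λ`, `x` in `O`, such that a conjugate of an element of `S` by `c x` lies in
`A`. -/
def hit (Λ O : Subgroup E) (c : E →* G) (S A : Set G) : Set (E ⧸ Λ) :=
  (fun x : E => (x : E ⧸ Λ)) '' {x | x ∈ O ∧ ∃ s ∈ S, c x * s * (c x)⁻¹ ∈ A}

theorem mem_hit {Λ O : Subgroup E} {c : E →* G} {S A : Set G}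
    (hS : ∀ v ∈ Λ, v ∈ O → ∀ s ∈ S, c v * s * (c v)⁻¹ ∈ S) {x : E} (hx : x ∈ O) :
    (x : E ⧸ Λ) ∈ hit Λ O c S A ↔ ∃ s ∈ S, c x * s * (c x)⁻¹ ∈ A := by
  constructor
  · rintro ⟨y, ⟨hy0, s, hs, hy⟩, hxy⟩
    have h1 : y⁻¹ * x ∈ Λ := QuotientGroup.eq.1 hxy
    have h1' : y⁻¹ * x ∈ O := O.mul_mem (O.inv_mem hy0) hx
    refine ⟨c (y⁻¹ * x)⁻¹ * s * (c (y⁻¹ * x)⁻¹)⁻¹, hS _ (Λ.inv_mem h1) (O.inv_mem h1') s hs, ?_⟩
    have : c x * (c (y⁻¹ * x)⁻¹ * s * (c (y⁻¹ * x)⁻¹)⁻¹) * (c x)⁻¹ = c y * s * (c y)⁻¹ := by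
      simp only [map_mul, map_inv]; group
    rw [this]; exact hy
  · intro h; exact ⟨x, ⟨hx, h⟩, rfl⟩

theorem isOpen_hit {Λ O : Subgroup E} (hO : IsOpen (O : Set E)) {c : E →* G} (hc : Continuous c)
    {S A : Set G} (hA : IsOpen A) : IsOpen (hit Λ O c S A) := by
  refine QuotientGroup.isOpenMap_coe _ ?_
  have : {x : E | x ∈ O ∧ ∃ s ∈ S, c x * s * (c x)⁻¹ ∈ A} =
      (O : Set E) ∩ ⋃ s ∈ S, (fun x => c x * s * (c x)⁻¹) ⁻¹' A := by
    ext x; simp
  rw [this]
  exact hO.inter (isOpen_biUnion fun s _ => hA.preimage (by fun_prop))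

/-- A finite set normalised by the image of the part of a lattice in an open subgroup is trivial. -/
theorem finite_normalised [SecondCountableTopology E] {Λ : Subgroup E} (hΛ : IsLattice Λ)
    [SecondCountableTopology G] [T1Space G] (hrec : RecG G) (c : E →* G) (hc : Continuous c)
    (O : Subgroup E) (hO : IsOpen (O : Set E)) (hcs : ∀ g, ∃ x ∈ O, c x = g)
    (S : Set G) (hSf : S.Finite) (hS : ∀ v ∈ Λ, v ∈ O → ∀ s ∈ S, c v * s * (c v)⁻¹ ∈ S) :
    ∀ s ∈ S, s = 1 := by
  classical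
  letI : MeasurableSpace (E ⧸ Λ) := borel _
  haveI : BorelSpace (E ⧸ Λ) := ⟨rfl⟩
  obtain ⟨ν, hν0, hνf, hνi⟩ := hΛ.covol
  -- small open sets are not hit
  have key : ∀ z : G, z ≠ 1 → ∃ W : Set G, IsOpen W ∧ z ∈ W ∧ ν (hit Λ O c S W) = 0 := by
    intro z hz
    obtain ⟨W, hW, a, ha⟩ := hrec z hz
    obtain ⟨W', hW', hW'o, hzW'⟩ := mem_nhds_iff.1 hW
    refine ⟨W', hW'o, hzW', ?_⟩
    choose x hxO hx using fun i => hcs (a i)
    have hD : ∀ i, ν (hit Λ O c S ((fun y => a i * y * (a i)⁻¹) '' W')) =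
        ν (hit Λ O c S W') := by
      intro i
      rw [← hνi (x i)⁻¹ _ (isOpen_hit hO hc hW'o).measurableSet]
      congr 1
      have e1 : ∀ y ∈ O, ((y : E ⧸ Λ) ∈ hit Λ O c S ((fun y => a i * y * (a i)⁻¹) '' W') ↔
          (((x i)⁻¹ * y : E) : E ⧸ Λ) ∈ hit Λ O c S W') := by
        intro y hy
        rw [mem_hit hS hy, mem_hit hS (O.mul_mem (O.inv_mem (hxO i)) hy)]
        refine exists_congr fun s => and_congr_right fun _ => ?_
        rw [map_mul, map_inv, hx]
        constructor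
        · rintro ⟨w, hw, hwy⟩
          have : (a i)⁻¹ * c y * s * ((a i)⁻¹ * c y)⁻¹ = w := by
            have h2 : (a i)⁻¹ * c y * s * ((a i)⁻¹ * c y)⁻¹ =
                (a i)⁻¹ * (c y * s * (c y)⁻¹) * a i := by group
            rw [h2, ← hwy]; simp only; group
          rw [this]; exact hw
        · intro h
          exact ⟨_, h, by group⟩
      ext q
      refine QuotientGroup.induction_on q fun y => ?_
      rw [mem_preimage]
      change _ ↔ (((x i)⁻¹ * y : E) : E ⧸ Λ) ∈ _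
      constructor
      · intro hq
        have hq1 := hq
        obtain ⟨y', ⟨hy', -⟩, hyy⟩ := hq
        change (y' : E ⧸ Λ) = (y : E ⧸ Λ) at hyy
        have hm := (e1 y' hy').1 (by rw [hyy]; exact hq1)
        have e2 : (((x i)⁻¹ * y : E) : E ⧸ Λ) = (((x i)⁻¹ * y' : E) : E ⧸ Λ) := by
          rw [QuotientGroup.eq] at hyy ⊢
          have : ((x i)⁻¹ * y)⁻¹ * ((x i)⁻¹ * y') = (y'⁻¹ * y)⁻¹ := by group
          rw [this]; exact Λ.inv_mem hyy
        rw [e2]; exact hm
      · intro hq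
        have hq1 := hq
        obtain ⟨z', ⟨hz', -⟩, hzz⟩ := hq
        change (z' : E ⧸ Λ) = (((x i)⁻¹ * y : E) : E ⧸ Λ) at hzz
        have e3 : (y : E ⧸ Λ) = ((x i * z' : E) : E ⧸ Λ) := by
          rw [QuotientGroup.eq] at hzz ⊢
          have : y⁻¹ * (x i * z') = (z'⁻¹ * ((x i)⁻¹ * y))⁻¹ := by group
          rw [this]; exact Λ.inv_mem hzz
        rw [e3, e1 _ (O.mul_mem (hxO i) hz')]
        have e4 : (x i)⁻¹ * (x i * z') = z' := by group
        rw [e4, hzz]; exact hq1
    have hm : ∀ i, MeasurableSet (hit Λ O c S ((fun y => a i * y * (a i)⁻¹) '' W')) := by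
      intro i
      refine (isOpen_hit hO hc ?_).measurableSet
      have e : (fun y => a i * y * (a i)⁻¹) '' W' = (fun x : G => (a i)⁻¹ * x * a i) ⁻¹' W' := by
        ext y
        constructor
        · rintro ⟨x, hx, rfl⟩
          have : (a i)⁻¹ * (a i * x * (a i)⁻¹) * a i = x := by group
          show (a i)⁻¹ * (a i * x * (a i)⁻¹) * a i ∈ W'
          rwa [this]
        · intro hy
          exact ⟨_, hy, by group⟩
      rw [e]
      exact hW'o.preimage (by fun_prop)
    have hcount : ∀ (M : ℕ) (q : E ⧸ Λ), ∑ i ∈ Finset.range M,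
        (hit Λ O c S ((fun y => a i * y * (a i)⁻¹) '' W')).indicator (fun _ => (1 : ℝ≥0∞)) q ≤
          (hSf.toFinset.card : ℝ≥0∞) := by
      intro M q
      have h1 : ∑ i ∈ Finset.range M, (hit Λ O c S ((fun y => a i * y * (a i)⁻¹) '' W')).indicator
          (fun _ => (1 : ℝ≥0∞)) q =
          (((Finset.range M).filter fun i => q ∈
            hit Λ O c S ((fun y => a i * y * (a i)⁻¹) '' W')).card : ℝ≥0∞) := by
        rw [Finset.card_filter, Nat.cast_sum]
        refine Finset.sum_congr rfl fun i _ => ?_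
        rw [indicator_apply]
        split_ifs <;> simp
      rw [h1, Nat.cast_le]
      by_cases hq : ∃ y ∈ O, (y : E ⧸ Λ) = q
      · obtain ⟨y, hy, rfl⟩ := hq
        have hex : ∀ i, (y : E ⧸ Λ) ∈ hit Λ O c S ((fun y => a i * y * (a i)⁻¹) '' W') →
            ∃ s ∈ S, c y * s * (c y)⁻¹ ∈ (fun y => a i * y * (a i)⁻¹) '' W' := fun i hi =>
          (mem_hit hS hy).1 hi
        let f : ℕ → G := fun i =>
          if h : (y : E ⧸ Λ) ∈ hit Λ O c S ((fun y => a i * y * (a i)⁻¹) '' W')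
            then (hex i h).choose else 1
        refine Finset.card_le_card_of_injOn f ?_ ?_
        · intro i hi
          have hi' := (Finset.mem_filter.1 hi).2
          simp only [f, hi', dif_pos]
          exact hSf.mem_toFinset.2 (hex i hi').choose_spec.1
        · intro i hi j hj hij
          have hi' := (Finset.mem_filter.1 hi).2
          have hj' := (Finset.mem_filter.1 hj).2
          simp only [f, hi', hj', dif_pos] at hij
          by_contra hne
          have h2 := (hex i hi').choose_spec.2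
          have h3 := (hex j hj').choose_spec.2
          rw [← hij] at h3
          exact Set.disjoint_left.1 (ha hne) (image_mono hW' h2) (image_mono hW' h3)
      · have : (Finset.range M).filter (fun i => q ∈
            hit Λ O c S ((fun y => a i * y * (a i)⁻¹) '' W')) = ∅ := by
          rw [Finset.filter_eq_empty_iff]
          rintro i - ⟨y, ⟨hy, -⟩, hyq⟩
          exact hq ⟨y, hy, hyq⟩
        rw [this]; simp
    have hsum : ∀ M : ℕ, (M : ℝ≥0∞) * ν (hit Λ O c S W') ≤ hSf.toFinset.card * ν univ := by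
      intro M
      calc (M : ℝ≥0∞) * ν (hit Λ O c S W') =
          ∑ i ∈ Finset.range M, ν (hit Λ O c S ((fun y => a i * y * (a i)⁻¹) '' W')) := by
            simp [hD]
        _ = ∑ i ∈ Finset.range M, ∫⁻ q, (hit Λ O c S
            ((fun y => a i * y * (a i)⁻¹) '' W')).indicator (fun _ => (1 : ℝ≥0∞)) q ∂ν := by
            refine Finset.sum_congr rfl fun i _ => ?_
            rw [lintegral_indicator_const (hm i), one_mul]
        _ = ∫⁻ q, ∑ i ∈ Finset.range M, (hit Λ O c S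
            ((fun y => a i * y * (a i)⁻¹) '' W')).indicator (fun _ => (1 : ℝ≥0∞)) q ∂ν := by
            rw [lintegral_finsetSum]
            intro i _
            exact measurable_const.indicator (hm i)
        _ ≤ ∫⁻ q, (hSf.toFinset.card : ℝ≥0∞) ∂ν := lintegral_mono (hcount M)
        _ = _ := by rw [lintegral_const]
    by_contra hne
    have hfin : (hSf.toFinset.card : ℝ≥0∞) * ν univ ≠ ⊤ :=
      ENNReal.mul_ne_top (ENNReal.natCast_ne_top _) hνf.ne
    obtain ⟨M, hM⟩ := ENNReal.exists_nat_mul_gt hne hfin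
    exact absurd (hsum M) (not_le.2 hM)
  -- everything off `1` is not hit
  have hz : ν (hit Λ O c S {1}ᶜ) = 0 := by
    choose! W hWo hzW hW0 using key
    obtain ⟨T, hT, hTc, hTu⟩ := TopologicalSpace.isOpen_biUnion_countable ({1}ᶜ : Set G) W
      (fun z hz => hWo z hz)
    have h1 : hit Λ O c S {1}ᶜ ⊆ ⋃ z ∈ T, hit Λ O c S (W z) := by
      rintro _ ⟨x, ⟨hxO, s, hs, hxs⟩, rfl⟩
      have h2 : c x * s * (c x)⁻¹ ∈ ⋃ z ∈ ({1}ᶜ : Set G), W z := mem_biUnion hxs (hzW _ hxs)
      rw [← hTu] at h2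
      obtain ⟨z, hz, hz2⟩ := mem_iUnion₂.1 h2
      exact mem_iUnion₂.2 ⟨z, hz, x, ⟨hxO, s, hs, hz2⟩, rfl⟩
    refine measure_mono_null h1 ((measure_biUnion_null_iff hTc).2 fun z hz => hW0 z (hT hz))
  have hY : IsOpen ((fun x : E => (x : E ⧸ Λ)) '' (O : Set E)) := QuotientGroup.isOpenMap_coe _ hO
  have hYn : ((fun x : E => (x : E ⧸ Λ)) '' (O : Set E)).Nonempty := ⟨_, 1, O.one_mem, rfl⟩
  have hYp := H793.measure_open_ne_zero ν hν0 hνi hY hYn
  have h1 : ¬ ((fun x : E => (x : E ⧸ Λ)) '' (O : Set E)) ⊆ hit Λ O c S {1}ᶜ := fun h =>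
    hYp (measure_mono_null h hz)
  obtain ⟨_, ⟨y, hyO, rfl⟩, hy⟩ := Set.not_subset.1 h1
  intro s hs
  rw [mem_hit hS hyO] at hy
  push Not at hy
  have h2 := hy s hs
  rw [mem_compl_iff, not_not, mem_singleton_iff] at h2
  have h3 : s = (c y)⁻¹ * (c y * s * (c y)⁻¹) * c y := by group
  rw [h3, h2]; group

end

end Vale.Agent.P092.H971
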