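import Mathlib

/-!
P092 (helper971), [B-GF]: the group input of Theorem A for a group with a dense image in a
topological group with few open subgroups.
-/

set_option linter.all false

namespace Vale.Agent.P092.H971

open Topology Pointwise

/-- The facts about the topological group. -/
structure GFacts (H : Type) [Group H] [TopologicalSpace H] : Prop where
  basis : ∀ W ∈ 𝓝 (1 : H), ∃ U : Subgroup H, IsOpen (U : Set H) ∧ IsCompact (U : Set H) ∧
    (U : Set H) ⊆ W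
  cpt : ∀ U : Subgroup H, IsOpen (U : Set H) → U ≠ ⊤ → IsCompact (U : Set H)
  nrm : ∀ U : Subgroup H, U.Normal → IsOpen (U : Set H) → U = ⊤
  cptn : ∀ U : Subgroup H, U.Normal → IsCompact (U : Set H) → U ≤ Subgroup.center H
  unb : ∃ g : H, ∀ C : Set H, IsCompact C → ∃ m : ℕ, g ^ m ∉ C
  cen : IsCompact (Subgroup.center H : Set H)
  comm : ∀ U : Subgroup H, IsOpen (U : Set H) → IsOpen ((⁅U, U⁆ : Subgroup H) : Set H)

/-- The traces on `Γ` of the compact open subgroups containing the centre. -/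
def cA {Γ H : Type} [Group Γ] [Group H] [TopologicalSpace H] (p : Γ →* H) : Set (Subgroup Γ) :=
  {L | ∃ U : Subgroup H, IsOpen (U : Set H) ∧ IsCompact (U : Set H) ∧ Subgroup.center H ≤ U ∧
    L = U.comap p}

/-- The group input of Theorem A. -/
structure GIn (A : Type) [Group A] (cA : Set (Subgroup A)) : Prop where
  ne : cA.Nonempty
  inf : ∀ U ∈ cA, ∀ V ∈ cA, U ⊓ V ∈ cA
  conj : ∀ U ∈ cA, ∀ a : A, ∃ V ∈ cA, ∀ x, x ∈ V ↔ a⁻¹ * x * a ∈ U
  g0 : ∀ U ∈ cA, ∀ V ∈ cA, U.relIndex V ≠ 0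
  g1 : ∀ L : Subgroup A, (∃ U ∈ cA, U ≤ L) → L ∈ cA ∨ L = ⊤
  g2 : ∀ N : Subgroup A, N.Normal → (∃ U ∈ cA, U ≤ N) → N = ⊤
  top : ⊤ ∉ cA
  inf_index : ∀ U ∈ cA, U.index = 0
  g3 : ∀ f : ℕ → Subgroup A, Monotone f → (∀ j, f j ∈ cA) → ∃ m, ∀ j, m ≤ j → f j = f m
  g4 : ∀ U ∈ cA, ∃ U' ∈ cA, U' ≤ U ∧ ∀ N ∈ cA, ∀ x ∈ U', ∃ c ∈ ⁅U, U⁆, ∃ y ∈ N, x = c * y
  g5' : ∀ U ∈ cA, ∀ U' ∈ cA, ∃ s : Finset A, ∀ x, (∀ h ∈ s, h⁻¹ * x * h ∈ U) → x ∈ U'
  seq : ∀ U ∈ cA, ∃ f : ℕ → Subgroup A, f 0 = U ∧ Antitone f ∧ (∀ j, f j ∈ cA) ∧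
    (∀ j, ∀ a ∈ U, ∀ x ∈ f j, a * x * a⁻¹ ∈ f j) ∧ ∀ V ∈ cA, ∃ j, f j ≤ V

section

variable {Γ H : Type} [Group Γ] [Group H] [TopologicalSpace H] [IsTopologicalGroup H] {p : Γ →* H}

theorem exists_eq_mul (hp : DenseRange p) {U : Subgroup H} (hU : IsOpen (U : Set H)) (h : H) :
    ∃ γ, ∃ u ∈ U, h = p γ * u := by
  have ho : IsOpen {x : H | x⁻¹ * h ∈ U} := hU.preimage (by fun_prop)
  obtain ⟨γ, hγ⟩ := hp.exists_mem_open ho ⟨h, by simp [U.one_mem]⟩
  exact ⟨γ, _, hγ, by group⟩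

theorem comap_le (hp : DenseRange p) {U V : Subgroup H} (hU : IsOpen (U : Set H))
    (hV : IsOpen (V : Set H)) (h : U.comap p ≤ V.comap p) : U ≤ V := by
  intro u hu
  obtain ⟨γ, v, hv, hh⟩ := exists_eq_mul hp (U := U ⊓ V) (hU.inter hV) u
  have h1 : p γ = u * v⁻¹ := by rw [hh]; group
  have h2 : γ ∈ U.comap p := by
    rw [Subgroup.mem_comap, h1]; exact U.mul_mem hu (U.inv_mem hv.1)
  rw [hh]
  exact V.mul_mem (h h2) hv.2

theorem mem_closure_comap (hp : DenseRange p) {U : Subgroup H} (hU : IsOpen (U : Set H)) {u : H}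
    (hu : u ∈ U) : u ∈ closure (p '' (U.comap p : Set Γ)) := by
  rw [mem_closure_iff]
  intro o ho huo
  obtain ⟨γ, hγ⟩ := hp.exists_mem_open (ho.inter hU) ⟨u, huo, hu⟩
  exact ⟨p γ, hγ.1, γ, hγ.2, rfl⟩

theorem exists_open (hp : DenseRange p) {U : Subgroup H} (hU : IsOpen (U : Set H))
    {L : Subgroup Γ} (hL : U.comap p ≤ L) :
    ∃ W : Subgroup H, IsOpen (W : Set H) ∧ U ≤ W ∧ L = W.comap p := by
  have hUW : U ≤ (L.map p).topologicalClosure := by
    intro u hu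
    have := mem_closure_comap hp hU hu
    refine closure_mono ?_ this
    rintro _ ⟨γ, hγ, rfl⟩
    exact ⟨γ, hL hγ, rfl⟩
  refine ⟨(L.map p).topologicalClosure, Subgroup.isOpen_mono hUW hU, hUW, le_antisymm ?_ ?_⟩
  · intro γ hγ
    exact subset_closure ⟨γ, hγ, rfl⟩
  · intro γ hγ
    have h1 : p γ ∈ closure ((L.map p : Subgroup H) : Set H) := hγ
    rw [mem_closure_iff] at h1
    have ho : IsOpen {x : H | x⁻¹ * p γ ∈ U} := hU.preimage (by fun_prop)
    obtain ⟨_, hx, l, hl, rfl⟩ := h1 _ ho (by simp [U.one_mem])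
    have h2 : l⁻¹ * γ ∈ L := hL (by
      rw [Subgroup.mem_comap, map_mul, map_inv]; exact hx)
    have h3 : γ = l * (l⁻¹ * γ) := by group
    rw [h3]; exact L.mul_mem hl h2

theorem isClosed_of_isOpen' {U : Subgroup H} (hU : IsOpen (U : Set H)) : IsClosed (U : Set H) :=
  Subgroup.isClosed_of_isOpen U hU

theorem isCompact_of_le {U V : Subgroup H} (hU : IsOpen (U : Set H)) (hV : IsCompact (V : Set H))
    (h : U ≤ V) : IsCompact (U : Set H) := hV.of_isClosed_subset (isClosed_of_isOpen' hU) h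

theorem GFacts.ncpt (F : GFacts H) : ¬ IsCompact (Set.univ : Set H) := fun h => by
  obtain ⟨g, hg⟩ := F.unb
  obtain ⟨m, hm⟩ := hg _ h
  exact hm (Set.mem_univ _)

theorem cA_g1 (F : GFacts H) (hp : DenseRange p) (L : Subgroup Γ) (hL : ∃ U ∈ cA p, U ≤ L) :
    L ∈ cA p ∨ L = ⊤ := by
  obtain ⟨_, ⟨U, hU, hUc, hUz, rfl⟩, hUL⟩ := hL
  obtain ⟨W, hW, hUW, rfl⟩ := exists_open hp hU hUL
  by_cases h : W = ⊤
  · right; rw [h, Subgroup.comap_top]
  · left; exact ⟨W, hW, F.cpt W hW h, hUz.trans hUW, rfl⟩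

theorem cA_g2 (F : GFacts H) (hp : DenseRange p) (N : Subgroup Γ) (hN : N.Normal)
    (hL : ∃ U ∈ cA p, U ≤ N) : N = ⊤ := by
  obtain ⟨_, ⟨U, hU, hUc, hUz, rfl⟩, hUL⟩ := hL
  obtain ⟨W, hW, hUW, rfl⟩ := exists_open hp hU hUL
  have h1 : ∀ γ : Γ, ∀ x ∈ W, p γ * x * (p γ)⁻¹ ∈ W := by
    intro γ x hx
    have ho : IsOpen {y : H | x⁻¹ * y ∈ W ∧ p γ * (x⁻¹ * y) * (p γ)⁻¹ ∈ W} :=
      (hW.preimage (f := fun y => x⁻¹ * y) (by fun_prop)).inter
        (hW.preimage (f := fun y => p γ * (x⁻¹ * y) * (p γ)⁻¹) (by fun_prop))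
    obtain ⟨δ, h2, h3⟩ := hp.exists_mem_open ho ⟨x, by simp [W.one_mem]⟩
    have h4 : p δ ∈ W := by
      have : p δ = x * (x⁻¹ * p δ) := by group
      rw [this]; exact W.mul_mem hx h2
    have h5 : γ * δ * γ⁻¹ ∈ W.comap p := hN.conj_mem δ h4 γ
    rw [Subgroup.mem_comap, map_mul, map_mul, map_inv] at h5
    have h6 : p γ * x * (p γ)⁻¹ = (p γ * p δ * (p γ)⁻¹) * (p γ * (x⁻¹ * p δ) * (p γ)⁻¹)⁻¹ := by
      group
    rw [h6]
    exact W.mul_mem h5 (W.inv_mem h3)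
  have hWn : W.Normal := ⟨fun x hx h => by
    obtain ⟨γ, u, hu, rfl⟩ := exists_eq_mul hp hW h
    have : p γ * u * x * (p γ * u)⁻¹ = p γ * (u * x * u⁻¹) * (p γ)⁻¹ := by group
    rw [this]
    exact h1 γ _ (W.mul_mem (W.mul_mem hu hx) (W.inv_mem hu))⟩
  rw [F.nrm W hWn hW, Subgroup.comap_top]

theorem cA_top (F : GFacts H) (hp : DenseRange p) : (⊤ : Subgroup Γ) ∉ cA p := by
  rintro ⟨U, hU, hUc, hUz, h⟩
  have : U = ⊤ := top_le_iff.1 (comap_le hp isOpen_univ hU (by rw [← h]; exact le_top))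
  rw [this] at hUc
  exact F.ncpt hUc

theorem cA_inf_index (F : GFacts H) (hp : DenseRange p) (L : Subgroup Γ) (hL : L ∈ cA p) :
    L.index = 0 := by
  obtain ⟨U, hU, hUc, hUz, rfl⟩ := hL
  by_contra hi
  haveI : (U.comap p).FiniteIndex := ⟨hi⟩
  haveI : Finite (Γ ⧸ U.comap p) := Subgroup.finite_quotient_of_finiteIndex
  refine F.ncpt ?_
  have h1 : (Set.univ : Set H) = ⋃ q : Γ ⧸ U.comap p, (fun x => p q.out * x) '' (U : Set H) := by
    refine (Set.eq_univ_of_forall fun h => ?_).symm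
    obtain ⟨γ, u, hu, rfl⟩ := exists_eq_mul hp hU h
    refine Set.mem_iUnion.2 ⟨(γ : Γ ⧸ U.comap p), (p (γ : Γ ⧸ U.comap p).out)⁻¹ * (p γ * u), ?_, ?_⟩
    · have h2 : ((γ : Γ ⧸ U.comap p).out)⁻¹ * γ ∈ U.comap p := by
        rw [← QuotientGroup.eq]
        exact Quotient.out_eq' _
      rw [Subgroup.mem_comap, map_mul, map_inv] at h2
      have h3 : (p (γ : Γ ⧸ U.comap p).out)⁻¹ * (p γ * u) =
        ((p (γ : Γ ⧸ U.comap p).out)⁻¹ * p γ) * u := by group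
      rw [h3]; exact U.mul_mem h2 hu
    · group
  rw [h1]
  exact isCompact_iUnion fun q => hUc.image (by fun_prop)

theorem cA_ne (F : GFacts H) : (cA p).Nonempty := by
  obtain ⟨U, hU, hUc, -⟩ := F.basis Set.univ Filter.univ_mem
  refine ⟨_, U ⊔ Subgroup.center H, Subgroup.isOpen_mono le_sup_left hU, ?_, le_sup_right, rfl⟩
  rw [Subgroup.mul_normal]
  exact hUc.mul F.cen

theorem cA_inf (L M : Subgroup Γ) (hL : L ∈ cA p) (hM : M ∈ cA p) : L ⊓ M ∈ cA p := by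
  obtain ⟨U, hU, hUc, hUz, rfl⟩ := hL
  obtain ⟨V, hV, hVc, hVz, rfl⟩ := hM
  have ho : IsOpen ((U ⊓ V : Subgroup H) : Set H) := hU.inter hV
  exact ⟨U ⊓ V, ho, isCompact_of_le ho hUc inf_le_left, le_inf hUz hVz, (Subgroup.comap_inf _ _ _).symm⟩

theorem cA_conj (L : Subgroup Γ) (hL : L ∈ cA p) (a : Γ) :
    ∃ V ∈ cA p, ∀ x, x ∈ V ↔ a⁻¹ * x * a ∈ L := by
  obtain ⟨U, hU, hUc, hUz, rfl⟩ := hL
  let W : Subgroup H := U.comap (MulAut.conj (p a)⁻¹).toMonoidHom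
  have hmem : ∀ x, x ∈ W ↔ (p a)⁻¹ * x * p a ∈ U := fun x => by
    simp [W, Subgroup.mem_comap, MulAut.conj_apply]
  have hWs : (W : Set H) = (fun x => (p a)⁻¹ * x * p a) ⁻¹' (U : Set H) := by
    ext x; exact hmem x
  have hW : IsOpen (W : Set H) := by
    rw [hWs]; exact hU.preimage (by fun_prop)
  refine ⟨W.comap p, ⟨W, hW, ?_, ?_, rfl⟩, fun x => ?_⟩
  · have : (W : Set H) = (fun x => p a * x * (p a)⁻¹) '' (U : Set H) := by
      ext x
      rw [Set.mem_image, SetLike.mem_coe, hmem]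
      constructor
      · intro h; exact ⟨_, h, by group⟩
      · rintro ⟨y, hy, rfl⟩
        have : (p a)⁻¹ * (p a * y * (p a)⁻¹) * p a = y := by group
        rw [this]; exact hy
    rw [this]; exact hUc.image (by fun_prop)
  · intro z hz
    rw [hmem]
    have : (p a)⁻¹ * z * p a = z := by
      rw [mul_assoc, ← Subgroup.mem_center_iff.1 hz (p a)]; group
    rw [this]; exact hUz hz
  · rw [Subgroup.mem_comap, hmem, Subgroup.mem_comap, map_mul, map_mul, map_inv]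

theorem relIndex_ne_zero {U V : Subgroup H} (hU : IsOpen (U : Set H)) (hV : IsCompact (V : Set H)) :
    U.relIndex V ≠ 0 := by
  haveI : CompactSpace V := isCompact_iff_compactSpace.1 hV
  have h1 : IsOpen ((U.subgroupOf V : Subgroup V) : Set V) := hU.preimage continuous_subtype_val
  haveI : Finite (V ⧸ U.subgroupOf V) := Subgroup.quotient_finite_of_isOpen _ h1
  exact Subgroup.index_ne_zero_of_finite

theorem cA_g0 (L M : Subgroup Γ) (hL : L ∈ cA p) (hM : M ∈ cA p) : L.relIndex M ≠ 0 := by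
  obtain ⟨U, hU, hUc, hUz, rfl⟩ := hL
  obtain ⟨V, hV, hVc, hVz, rfl⟩ := hM
  exact Subgroup.relIndex_comap_ne_zero p (relIndex_ne_zero hU hVc)

theorem cA_g3 (F : GFacts H) (hp : DenseRange p) (f : ℕ → Subgroup Γ) (hf : Monotone f)
    (hA : ∀ j, f j ∈ cA p) : ∃ m, ∀ j, m ≤ j → f j = f m := by
  choose W hW hWc hWz hWf using hA
  have hmono : Monotone W := fun i j hij =>
    comap_le hp (hW i) (hW j) (by rw [← hWf, ← hWf]; exact hf hij)
  have hopen : IsOpen ((⨆ j, W j : Subgroup H) : Set H) :=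
    Subgroup.isOpen_mono (le_iSup W 0) (hW 0)
  have hdir : Directed (· ≤ ·) W := hmono.directed_le
  have hne : (⨆ j, W j) ≠ ⊤ := by
    intro h
    obtain ⟨g, hg⟩ := F.unb
    have : g ∈ ⨆ j, W j := by rw [h]; exact Subgroup.mem_top _
    obtain ⟨j, hj⟩ := (Subgroup.mem_iSup_of_directed hdir).1 this
    obtain ⟨m, hm⟩ := hg _ (hWc j)
    exact hm ((W j).pow_mem hj m)
  obtain ⟨m, hm⟩ := (F.cpt _ hopen hne).elim_directed_cover (fun j => (W j : Set H)) hW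
    (fun x hx => Set.mem_iUnion.2 ((Subgroup.mem_iSup_of_directed hdir).1 hx)) hmono.directed_le
  refine ⟨m, fun j hj => ?_⟩
  rw [hWf, hWf]
  congr 1
  exact le_antisymm ((le_iSup W j).trans hm) (hmono hj)

theorem cA_g4 (F : GFacts H) (hp : DenseRange p) (L : Subgroup Γ) (hL : L ∈ cA p) :
    ∃ U' ∈ cA p, U' ≤ L ∧ ∀ N ∈ cA p, ∀ x ∈ U', ∃ c ∈ ⁅L, L⁆, ∃ y ∈ N, x = c * y := by
  obtain ⟨W, hW, hWc, hWz, rfl⟩ := hL
  have ho : IsOpen ((⁅W, W⁆ ⊔ Subgroup.center H : Subgroup H) : Set H) :=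
    Subgroup.isOpen_mono le_sup_left (F.comm W hW)
  have hle : ⁅W, W⁆ ⊔ Subgroup.center H ≤ W := by
    refine sup_le (Subgroup.commutator_le.2 fun g hg h hh => ?_) hWz
    exact W.mul_mem (W.mul_mem (W.mul_mem hg hh) (W.inv_mem hg)) (W.inv_mem hh)
  refine ⟨_, ⟨⁅W, W⁆ ⊔ Subgroup.center H, ho, isCompact_of_le ho hWc hle, le_sup_right, rfl⟩,
    Subgroup.comap_mono hle, ?_⟩
  rintro _ ⟨M, hM, hMc, hMz, rfl⟩ x hx
  obtain ⟨c, hc, z, hz, hcz⟩ := (Subgroup.mem_sup_of_normal_right).1 (Subgroup.mem_comap.1 hx)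
  have hD : ⁅W, W⁆ ≤ (Subgroup.map p ⁅W.comap p, W.comap p⁆).topologicalClosure := by
    refine Subgroup.commutator_le.2 fun g hg h hh => ?_
    have hcont : Continuous fun q : H × H => q.1 * q.2 * q.1⁻¹ * q.2⁻¹ := by fun_prop
    refine map_mem_closure₂ (f := fun a b : H => a * b * a⁻¹ * b⁻¹) hcont
      (mem_closure_comap hp hW hg) (mem_closure_comap hp hW hh) ?_
    rintro _ ⟨a, ha, rfl⟩ _ ⟨b, hb, rfl⟩
    exact ⟨a * b * a⁻¹ * b⁻¹, Subgroup.commutator_mem_commutator ha hb, by simp⟩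
  have h1 : c ∈ closure ((Subgroup.map p ⁅W.comap p, W.comap p⁆ : Subgroup H) : Set H) := hD hc
  rw [mem_closure_iff] at h1
  have ho' : IsOpen {y : H | y⁻¹ * c ∈ M} := hM.preimage (by fun_prop)
  obtain ⟨_, hy, d, hd, rfl⟩ := h1 _ ho' (by simp [M.one_mem])
  refine ⟨d, hd, d⁻¹ * x, ?_, by group⟩
  rw [Subgroup.mem_comap, map_mul, map_inv, ← hcz, ← mul_assoc]
  exact M.mul_mem hy (hMz hz)

theorem cA_g5' (F : GFacts H) (hp : DenseRange p) (L M : Subgroup Γ) (hL : L ∈ cA p)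
    (hM : M ∈ cA p) : ∃ s : Finset Γ, ∀ x, (∀ h ∈ s, h⁻¹ * x * h ∈ L) → x ∈ M := by
  classical
  obtain ⟨W, hW, hWc, hWz, rfl⟩ := hL
  obtain ⟨W', hW', hWc', hWz', rfl⟩ := hM
  have hWcl := isClosed_of_isOpen' hW
  have hcore : W.normalCore ≤ Subgroup.center H := by
    refine F.cptn _ inferInstance ?_
    refine hWc.of_isClosed_subset ?_ (Subgroup.normalCore_le W)
    have : (W.normalCore : Set H) = ⋂ b : H, (fun a => b * a * b⁻¹) ⁻¹' (W : Set H) := by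
      ext a
      simp only [Set.mem_iInter, Set.mem_preimage, SetLike.mem_coe]
      rfl
    rw [this]
    exact isClosed_iInter fun b => hWcl.preimage (by fun_prop)
  obtain ⟨s, hs⟩ := hWc.elim_finite_subfamily_closed
    (fun γ : Γ => {h : H | (p γ)⁻¹ * h * p γ ∈ W} ∩ (W' : Set H)ᶜ)
    (fun γ => (hWcl.preimage (f := fun h => (p γ)⁻¹ * h * p γ) (by fun_prop)).inter
      hW'.isClosed_compl) (by
      rw [Set.eq_empty_iff_forall_notMem]
      rintro x ⟨hx, hx'⟩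
      rw [Set.mem_iInter] at hx'
      refine (hx' 1).2 (hWz' (hcore ?_))
      intro b
      obtain ⟨γ, u, hu, hb⟩ := exists_eq_mul hp hW b⁻¹
      have h1 : b * x * b⁻¹ = u⁻¹ * ((p γ)⁻¹ * x * p γ) * u := by
        rw [hb, ← inv_inv b, hb]; group
      rw [h1]
      exact W.mul_mem (W.mul_mem (W.inv_mem hu) (hx' γ).1) hu)
  refine ⟨insert 1 s, fun x hx => ?_⟩
  by_contra hxM
  have h1 : p x ∈ W := by
    have := hx 1 (Finset.mem_insert_self _ _)
    simpa using this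
  have : p x ∈ (W : Set H) ∩ ⋂ i ∈ s, ({h : H | (p i)⁻¹ * h * p i ∈ W} ∩ (W' : Set H)ᶜ) := by
    refine ⟨h1, Set.mem_iInter₂.2 fun i hi => ⟨?_, hxM⟩⟩
    have := hx i (Finset.mem_insert_of_mem hi)
    rw [Subgroup.mem_comap, map_mul, map_mul, map_inv] at this
    exact this
  rw [hs] at this
  exact this

/-- The part of `B` fixed under conjugation by `W`. -/
def core (W B : Subgroup H) : Subgroup H where
  carrier := {h | ∀ w ∈ W, w * h * w⁻¹ ∈ B}
  one_mem' := fun w _ => by simp [B.one_mem]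
  mul_mem' := fun {x y} hx hy w hw => by
    have : w * (x * y) * w⁻¹ = (w * x * w⁻¹) * (w * y * w⁻¹) := by group
    rw [this]; exact B.mul_mem (hx w hw) (hy w hw)
  inv_mem' := fun {x} hx w hw => by
    have : w * x⁻¹ * w⁻¹ = (w * x * w⁻¹)⁻¹ := by group
    rw [this]; exact B.inv_mem (hx w hw)

theorem core_le (W B : Subgroup H) : core W B ≤ B := fun h hh => by
  have := hh 1 W.one_mem
  simpa using this

theorem core_conj (W B : Subgroup H) {a x : H} (ha : a ∈ W) (hx : x ∈ core W B) :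
    a * x * a⁻¹ ∈ core W B := fun w hw => by
  have : w * (a * x * a⁻¹) * w⁻¹ = (w * a) * x * (w * a)⁻¹ := by group
  rw [this]; exact hx _ (W.mul_mem hw ha)

theorem isOpen_core {W B : Subgroup H} (hW : IsCompact (W : Set H)) (hB : IsOpen (B : Set H)) :
    IsOpen (core W B : Set H) := by
  have hn : IsOpen {q : H × H | q.1 * q.2 * q.1⁻¹ ∈ B} := hB.preimage (by fun_prop)
  obtain ⟨u, v, hu, hv, hWu, h1v, huv⟩ := generalized_tube_lemma hW (isCompact_singleton (x := (1 : H)))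
    hn (by
      rintro ⟨a, b⟩ ⟨ha, hb⟩
      rw [Set.mem_singleton_iff] at hb
      simp only at hb
      subst hb
      simp [B.one_mem])
  refine Subgroup.isOpen_of_mem_nhds _ (g := 1) ?_
  refine Filter.mem_of_superset (hv.mem_nhds (h1v rfl)) fun h hh w hw => ?_
  exact huv (show ((w, h) : H × H) ∈ u ×ˢ v from ⟨hWu hw, hh⟩)

/-- A decreasing sequence. -/
def wseq (W : Subgroup H) (B : ℕ → Subgroup H) : ℕ → Subgroup H
  | 0 => W
  | j + 1 => wseq W B j ⊓ (core W (B j) ⊔ Subgroup.center H)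

theorem cA_seq [FirstCountableTopology H] (F : GFacts H) (hp : DenseRange p) (L : Subgroup Γ)
    (hL : L ∈ cA p) : ∃ f : ℕ → Subgroup Γ, f 0 = L ∧ Antitone f ∧ (∀ j, f j ∈ cA p) ∧
    (∀ j, ∀ a ∈ L, ∀ x ∈ f j, a * x * a⁻¹ ∈ f j) ∧ ∀ V ∈ cA p, ∃ j, f j ≤ V := by
  obtain ⟨W, hW, hWc, hWz, rfl⟩ := hL
  obtain ⟨N, hN⟩ := (𝓝 (1 : H)).exists_antitone_basis
  choose B hB hBc hBN using fun j => F.basis (N j) (hN.1.mem_of_mem trivial)
  have hmono : ∀ j, wseq W B (j + 1) ≤ wseq W B j := fun j => inf_le_left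
  have hanti : Antitone (wseq W B) := antitone_nat_of_succ_le hmono
  have hopen : ∀ j, IsOpen (wseq W B j : Set H) := by
    intro j
    induction j with
    | zero => exact hW
    | succ j ih => exact ih.inter (Subgroup.isOpen_mono le_sup_left (isOpen_core hWc (hB j)))
  have hz : ∀ j, Subgroup.center H ≤ wseq W B j := by
    intro j
    induction j with
    | zero => exact hWz
    | succ j ih => exact le_inf ih le_sup_right
  have hconj : ∀ j, ∀ a ∈ W, ∀ x ∈ wseq W B j, a * x * a⁻¹ ∈ wseq W B j := by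
    intro j
    induction j with
    | zero => intro a ha x hx; exact W.mul_mem (W.mul_mem ha hx) (W.inv_mem ha)
    | succ j ih =>
      intro a ha x hx
      refine ⟨ih a ha x hx.1, ?_⟩
      obtain ⟨c, hc, z, hz, hcz⟩ := (Subgroup.mem_sup_of_normal_right).1 hx.2
      refine (Subgroup.mem_sup_of_normal_right).2 ⟨a * c * a⁻¹, core_conj _ _ ha hc, z, hz, ?_⟩
      rw [← hcz]
      have : z * a⁻¹ = a⁻¹ * z := (Subgroup.mem_center_iff.1 hz a⁻¹).symm
      rw [mul_assoc (a * c), ← this]; group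
  refine ⟨fun j => (wseq W B j).comap p, rfl, fun i j hij => Subgroup.comap_mono (hanti hij),
    fun j => ⟨_, hopen j, isCompact_of_le (hopen j) hWc (hanti (Nat.zero_le j)), hz j, rfl⟩,
    fun j a ha x hx => ?_, ?_⟩
  · have := hconj j (p a) ha (p x) hx
    rw [Subgroup.mem_comap, map_mul, map_mul, map_inv]
    exact this
  · rintro _ ⟨V, hV, hVc, hVz, rfl⟩
    obtain ⟨j, -, hj⟩ := hN.1.mem_iff.1 (hV.mem_nhds V.one_mem)
    refine ⟨j + 1, Subgroup.comap_mono (inf_le_right.trans (sup_le ?_ hVz))⟩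
    exact (core_le _ _).trans fun x hx => hj (hBN j hx)

/-- The group input for a dense homomorphism. -/
theorem gin [FirstCountableTopology H] (F : GFacts H) (hp : DenseRange p) : GIn Γ (cA p) where
  ne := cA_ne F
  inf := fun U hU V hV => cA_inf U V hU hV
  conj := cA_conj
  g0 := fun U hU V hV => cA_g0 U V hU hV
  g1 := cA_g1 F hp
  g2 := cA_g2 F hp
  top := cA_top F hp
  inf_index := cA_inf_index F hp
  g3 := cA_g3 F hp
  g4 := cA_g4 F hp
  g5' := fun U hU V hV => cA_g5' F hp U V hU hV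
  seq := cA_seq F hp

end

end Vale.Agent.P092.H971
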