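import Vale.Agent.P092.H971.GF2
import Vale.Agent.P092.H971.GIn
import Vale.Agent.P092.H899.OpenComm

/-!
P092 (helper971), [B-GF]: the group input of Theorem A for dense homomorphisms to `SL_N` of a
non-archimedean local field.
-/

set_option linter.all false

namespace Vale.Agent.P092.H971

open Matrix Matrix.SpecialLinearGroup Topology
open Vale.Agent.P092.H933

variable {k : Type} [NontriviallyNormedField k] [IsUltrametricDist k] [ProperSpace k] {N : ℕ}

theorem near.bdd {ε : ℝ} (h1 : ε ≤ 1) {g : SpecialLinearGroup (Fin N) k} (h : near ε g) :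
    bdd 1 (g : Matrix (Fin N) (Fin N) k) := fun i j => by
  have h2 : (g : Matrix (Fin N) (Fin N) k) i j =
      ((g : Matrix (Fin N) (Fin N) k) i j - (1 : Matrix (Fin N) (Fin N) k) i j) +
        (1 : Matrix (Fin N) (Fin N) k) i j := by ring
  rw [h2]
  refine (IsUltrametricDist.norm_add_le_max _ _).trans (max_le ((h i j).trans h1) ?_)
  rw [Matrix.one_apply]; split_ifs <;> simp

theorem near.mul {ε : ℝ} (h0 : 0 ≤ ε) (h1 : ε ≤ 1) {g h : SpecialLinearGroup (Fin N) k}
    (hg : near ε g) (hh : near ε h) : near ε (g * h) := fun i j => by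
  have h2 : ((g * h : SpecialLinearGroup (Fin N) k) : Matrix (Fin N) (Fin N) k) i j -
      (1 : Matrix (Fin N) (Fin N) k) i j =
      ((g : Matrix (Fin N) (Fin N) k) * ((h : Matrix (Fin N) (Fin N) k) - 1)) i j +
        ((g : Matrix (Fin N) (Fin N) k) i j - (1 : Matrix (Fin N) (Fin N) k) i j) := by
    rw [coe_mul, Matrix.mul_sub, Matrix.mul_one, Matrix.sub_apply]; ring
  rw [h2]
  refine (IsUltrametricDist.norm_add_le_max _ _).trans (max_le ?_ (hg i j))
  have := mul_entry_le' zero_le_one h0 (hg.bdd h1)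
    (B := (h : Matrix (Fin N) (Fin N) k) - 1) (fun a b => by rw [Matrix.sub_apply]; exact hh a b) i j
  simpa using this

/-- The congruence subgroup. -/
def cong (N : ℕ) (k : Type) [NontriviallyNormedField k] [IsUltrametricDist k] [ProperSpace k]
    (ε : ℝ) (h0 : 0 ≤ ε) (h1 : ε ≤ 1) : Subgroup (SpecialLinearGroup (Fin N) k) where
  carrier := {g | near ε g ∧ near ε g⁻¹}
  one_mem' := by
    have : near ε (1 : SpecialLinearGroup (Fin N) k) := fun i j => by simp [h0]
    exact ⟨this, by rw [inv_one]; exact this⟩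
  mul_mem' := fun {x y} hx hy =>
    ⟨hx.1.mul h0 h1 hy.1, by rw [_root_.mul_inv_rev]; exact hy.2.mul h0 h1 hx.2⟩
  inv_mem' := fun {x} hx => ⟨hx.2, by rw [inv_inv]; exact hx.1⟩

theorem isOpen_cong {ε : ℝ} (h0 : 0 < ε) (h1 : ε ≤ 1) :
    IsOpen (cong N k ε h0.le h1 : Set (SpecialLinearGroup (Fin N) k)) := by
  have hn : {g : SpecialLinearGroup (Fin N) k | near ε g} ∈ 𝓝 (1 : SpecialLinearGroup (Fin N) k) :=
    mem_nhds_of_near h0 fun g hg => hg
  have hi : {g : SpecialLinearGroup (Fin N) k | near ε g⁻¹} ∈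
      𝓝 (1 : SpecialLinearGroup (Fin N) k) := by
    have hc : Filter.Tendsto (fun g : SpecialLinearGroup (Fin N) k => g⁻¹) (𝓝 1) (𝓝 1) := by
      have := (continuous_inv (G := SpecialLinearGroup (Fin N) k)).tendsto 1
      rwa [inv_one] at this
    exact hc hn
  exact Subgroup.isOpen_of_mem_nhds _ (g := 1) (Filter.inter_mem hn hi)

theorem isCompact_of_bdd (U : Subgroup (SpecialLinearGroup (Fin N) k)) {R : ℝ}
    (hU : IsClosed (U : Set (SpecialLinearGroup (Fin N) k)))
    (h : ∀ g ∈ U, bdd R (g : Matrix (Fin N) (Fin N) k)) :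
    IsCompact (U : Set (SpecialLinearGroup (Fin N) k)) :=
  (isCompact_bdd R).of_isClosed_subset hU h

theorem center_bdd {g : SpecialLinearGroup (Fin N) k}
    (hg : g ∈ Subgroup.center (SpecialLinearGroup (Fin N) k)) :
    bdd 1 (g : Matrix (Fin N) (Fin N) k) := by
  obtain ⟨r, hr, hg⟩ := mem_center_iff.1 hg
  intro i j
  have hN : N ≠ 0 := by rintro rfl; exact i.elim0
  have h1 : ‖r‖ = 1 := by
    have := congrArg norm hr
    rw [norm_pow, norm_one, Fintype.card_fin] at this
    exact (pow_eq_one_iff_of_nonneg (norm_nonneg r) hN).1 this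
  rw [← hg, Matrix.scalar_apply, Matrix.diagonal_apply]
  split_ifs
  · exact h1.le
  · simp

instance : FirstCountableTopology (SpecialLinearGroup (Fin N) k) := by
  haveI : FirstCountableTopology (Matrix (Fin N) (Fin N) k) :=
    inferInstanceAs (FirstCountableTopology (Fin N → Fin N → k))
  exact (Topology.IsInducing.subtypeVal (Y := Matrix (Fin N) (Fin N) k)).firstCountableTopology

theorem isCompact_center : IsCompact (Subgroup.center (SpecialLinearGroup (Fin N) k) :
    Set (SpecialLinearGroup (Fin N) k)) := by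
  refine isCompact_of_bdd _ ?_ (fun g hg => center_bdd hg)
  rw [Subgroup.coe_center, ← Set.centralizer_univ]
  exact Set.isClosed_centralizer _

/-- The facts for `SL_N`. -/
theorem gfacts_SL (hN : 2 ≤ N) : GFacts (SpecialLinearGroup (Fin N) k) where
  basis := fun W hW => by
    obtain ⟨ε, h0, h1, hn⟩ := exists_near hW
    refine ⟨cong N k ε h0.le h1, isOpen_cong h0 h1, ?_, fun g hg => hn g hg.1⟩
    exact isCompact_of_bdd _ (Subgroup.isClosed_of_isOpen _ (isOpen_cong h0 h1))
      (fun g hg => hg.1.bdd h1)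
  cpt := fun U hU h => isCompact_of_isOpen_ne_top U hU h
  nrm := fun U hn hU => by
    haveI : Nontrivial (Fin N) := Fin.nontrivial_iff_two_le.2 hN
    exact eq_top_of_isOpen_normal U hU
  cptn := fun U hn hU => le_center_of_isCompact U hU le_rfl
  unb := by
    obtain ⟨a, ha⟩ := NormedField.exists_lt_norm k 1
    have ha0 : a ≠ 0 := norm_pos_iff.1 (lt_trans zero_lt_one ha)
    have hij : (⟨0, by omega⟩ : Fin N) ≠ ⟨1, by omega⟩ := by simp
    refine ⟨diag2n hij a ha0, fun C hC => ?_⟩
    obtain ⟨R, hR0, hR⟩ := exists_bound hC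
    obtain ⟨m, hmR⟩ := pow_unbounded_of_one_lt R ha
    refine ⟨m, fun hm => ?_⟩
    have h2 := hR _ hm ⟨0, by omega⟩ ⟨0, by omega⟩
    have h3 : (((diag2n hij a ha0 : SpecialLinearGroup (Fin N) k) ^ m :
        SpecialLinearGroup (Fin N) k) : Matrix (Fin N) (Fin N) k) ⟨0, by omega⟩ ⟨0, by omega⟩ =
        a ^ m := by
      rw [coe_pow, diag2n_coe, Matrix.diagonal_pow, Matrix.diagonal_apply_eq]
      simp
    rw [h3, norm_pow] at h2
    linarith
  cen := isCompact_center
  comm := fun U hU => H899.isOpen_commutator U hU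

/-- The group input of Theorem A for dense homomorphisms to `SL_N(k)`. -/
theorem gin_SL {Γ : Type} [Group Γ] (hN : 2 ≤ N) {p : Γ →* SpecialLinearGroup (Fin N) k}
    (hp : DenseRange p) : GIn Γ (cA p) := gin (gfacts_SL hN) hp

end Vale.Agent.P092.H971
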