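import Vale.Agent.P092.SR.Multi
import Vale.Agent.P092.H200.HeightL
import Vale.Agent.P092.H628.TorGlue
import Vale.Agent.P092.H945.TorStmt
import Vale.Agent.P092.H144.MatchR
import Vale.Agent.P092.H217.ThA
import Vale.Agent.P092.H911.C56Stmt
import Vale.Agent.P092.H941.C7R
import Vale.Agent.P092.H113.PassStmt
import Vale.Agent.P092.H839.A1Stmt
import Vale.Agent.P092.H839.FlipStmt
import Vale.Agent.P092.H53.Swap
import Vale.Agent.P092.H971.PlcSL

/-!
P092 (helper971), project B: any finite number of factors (reducible lattices with dense projections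
to every factor included), `t = 1`, arbitrary ICC `Λ`.
-/

set_option linter.all false

open scoped InnerProductSpace
open Filter Topology ContinuousLinearMap Matrix

namespace Vale.Agent.P092.H971

open Vale.Agent.P092.H515.St Vale.Agent.P092.H160 Vale.Agent.P092.SR Vale.Agent.P092.H776

section height

open Vale.Agent.P092.H200.HeightL

variable {Γ Λ : Type} [Group Γ] [Group Λ] {α : Γ →* (Ell2 Λ →L[ℂ] Ell2 Λ)}

/-- The basic estimate for two vectors. -/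
theorem height_pair (hα : Frame α) (v w : Ell2 (Λ × Λ)) {κ : ℝ} (hκ : 0 < κ) :
    ∃ c : ℝ, 0 < c ∧ ∀ g, (∃ T : Ell2 (Λ × Λ) →L[ℂ] Ell2 (Λ × Λ), (∀ v, ‖T v‖ ≤ ‖v‖) ∧
      (∀ s t, ∃ p q : Ell2 Λ, ‖p‖ ≤ 1 ∧ ‖q‖ ≤ 1 ∧ T (dl (s, t)) = tv p q) ∧
      κ ≤ ‖⟪T w, VV α g v⟫_ℂ‖) → ∃ r, c ≤ ‖(α g (dl 1)) r‖ := by
  obtain ⟨M, hM, hvM, hwM⟩ : ∃ M : ℝ, 0 ≤ M ∧ ‖v‖ ≤ M ∧ ‖w‖ ≤ M :=
    ⟨max ‖v‖ ‖w‖, (norm_nonneg _).trans (le_max_left _ _), le_max_left _ _, le_max_right _ _⟩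
  obtain ⟨δ, hδ, hδ1⟩ : ∃ δ : ℝ, 0 < δ ∧ δ * M + (M + δ) * δ ≤ κ / 2 := by
    refine ⟨min 1 (κ / (4 * (M + 1))), lt_min one_pos (by positivity), ?_⟩
    obtain ⟨d, hd⟩ : ∃ d, d = min 1 (κ / (4 * (M + 1))) := ⟨_, rfl⟩
    rw [← hd]
    have h1 : d ≤ 1 := hd ▸ min_le_left _ _
    have h2 : d ≤ κ / (4 * (M + 1)) := hd ▸ min_le_right _ _
    have h0 : 0 ≤ d := by rw [hd]; positivity
    rw [le_div_iff₀ (by positivity)] at h2
    nlinarith
  obtain ⟨x, hx, hvx⟩ := dl_dense v hδ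
  obtain ⟨y, hy, hwy⟩ := dl_dense w hδ
  obtain ⟨C, hC, hb⟩ := span_bound hα x y hx hy
  refine ⟨κ / (4 * (C + 1)), by positivity, fun g hg => ?_⟩
  by_contra hcon
  push Not at hcon
  obtain ⟨T, hTn, hT, ha⟩ := hg
  have h1 := hb g (κ / (4 * (C + 1))) (fun r => (hcon r).le) T hT
  have h2 : ⟪T w, VV α g v⟫_ℂ = ⟪T (w - y), VV α g v⟫_ℂ + ⟪T y, VV α g (v - x)⟫_ℂ +
      ⟪T y, VV α g x⟫_ℂ := by
    rw [map_sub, map_sub, inner_sub_left, inner_sub_right]
    ring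
  have h3 : ‖⟪T (w - y), VV α g v⟫_ℂ‖ ≤ δ * M := by
    refine (norm_inner_le_norm _ _).trans ?_
    rw [norm_VV hα]
    exact mul_le_mul ((hTn _).trans hwy.le) hvM (norm_nonneg _) hδ.le
  have hyn : ‖y‖ ≤ M + δ := by
    have h4 : y = w - (w - y) := by abel
    rw [h4]
    refine (norm_sub_le _ _).trans ?_
    linarith
  have h4 : ‖⟪T y, VV α g (v - x)⟫_ℂ‖ ≤ (M + δ) * δ := by
    refine (norm_inner_le_norm _ _).trans ?_
    rw [norm_VV hα]
    exact mul_le_mul ((hTn _).trans hyn) hvx.le (norm_nonneg _) (by positivity)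
  have h5 : κ / (4 * (C + 1)) * C ≤ κ / 4 := by
    rw [div_mul_eq_mul_div, div_le_div_iff₀ (by positivity) (by positivity)]
    nlinarith
  have h6 : κ ≤ κ / 2 + κ / 4 := by
    calc κ ≤ ‖⟪T w, VV α g v⟫_ℂ‖ := ha
      _ ≤ ‖⟪T (w - y), VV α g v⟫_ℂ‖ + ‖⟪T y, VV α g (v - x)⟫_ℂ‖ + ‖⟪T y, VV α g x⟫_ℂ‖ := by
        rw [h2]
        exact (norm_add_le _ _).trans (add_le_add_left (norm_add_le _ _) _)
      _ ≤ κ / 2 + κ / 4 := by linarith
  linarith

/-- Uniform overlap with finitely many vectors bounds the heights. -/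
theorem height_fam (hα : Frame α) {r : ℕ} (ζ : Fin r → Ell2 (Λ × Λ)) {κ : ℝ} (hκ : 0 < κ)
    (h : ∀ g, ∃ i j a b, κ ≤ ‖⟪VV α g (ζ i), RR₁ α a (RR₂ α b (ζ j))⟫_ℂ‖) :
    ∃ c : ℝ, 0 < c ∧ ∀ g, c ≤ p4 α g := by
  classical
  choose c hc0 hc using fun p : Fin r × Fin r => height_pair hα (ζ p.1) (ζ p.2) hκ
  obtain ⟨i0, j0, -⟩ := h 1
  have hne : (Finset.univ : Finset (Fin r × Fin r)).Nonempty := ⟨(i0, j0), Finset.mem_univ _⟩
  refine ⟨(Finset.univ.inf' hne c) ^ 4, ?_, fun g => ?_⟩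
  · have : 0 < Finset.univ.inf' hne c := by
      rw [Finset.lt_inf'_iff]
      exact fun p _ => hc0 p
    positivity
  · obtain ⟨i, j, a, b, hab⟩ := h g
    obtain ⟨s, hs⟩ := hc (i, j) g ⟨RR₁ α a * RR₂ α b, fun v => (norm_RR hα a b v).le,
      RR_dl hα a b, by
        rw [← norm_inner_symm]
        exact hab⟩
    have h1 : 0 < Finset.univ.inf' hne c := by
      rw [Finset.lt_inf'_iff]
      exact fun p _ => hc0 p
    exact p4_ge hα h1.le ((Finset.inf'_le c (Finset.mem_univ (i, j))).trans hs)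

end height

section core

variable {I : Type} [Fintype I] {A : I → Type} [∀ i, Group (A i)] [∀ i, TopologicalSpace (A i)]
  [∀ i, IsTopologicalGroup (A i)] [∀ i, T2Space (A i)] [∀ i, SecondCountableTopology (A i)]
  [∀ i, LocallyCompactSpace (A i)] {Γ Λ : Type} [Group Γ] [Group Λ]

/-- **The core for any finite number of factors, `t = 1`.** -/
theorem core_r (q : ∀ i, Γ →* A i) (hinj : ∀ g, (∀ i, q i g = 1) → g = 1)
    (hlat : IsLattice (MonoidHom.pi q).range) (hd : ∀ i, DenseRange (q i))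
    (hicc : ∀ g : Γ, g ≠ 1 → Set.Infinite {y : Γ | ∃ h, y = h * g * h⁻¹})
    (cfin : ∀ i, Finite (Subgroup.center (A i)))
    (good : ∀ i, GoodGrp (A i ⧸ Subgroup.center (A i))) (θ : H160.St.StarIso Γ Λ)
    (herg : ∀ i, ErgAt (VV (alphaOf (toAlg θ))) (RR₁ (alphaOf (toAlg θ)))
      (RR₂ (alphaOf (toAlg θ))) (q i))
    (hfin : ∀ i, ∃ j, FinN (q i) (q j) (VV (alphaOf (toAlg θ))) (RR₁ (alphaOf (toAlg θ)))
      (Set.range (RR₂ (alphaOf (toAlg θ))))) : H160.St.Canonical θ := by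
  have hα : Frame (alphaOf (toAlg θ)) := frame_of_iso hicc (toAlg θ)
  set α := alphaOf (toAlg θ) with hαd
  have cA : ∀ i, IsCompact (Subgroup.center (A i) : Set (A i)) := fun i =>
    (Set.toFinite (Subgroup.center (A i) : Set (A i))).isCompact
  have hp : Plc fun i => (QuotientGroup.mk' (Subgroup.center (A i))).comp (q i) :=
    plc_quot q hinj hlat hd hicc cA fun i => (good i).basis
  have hT := H839.modelStmt α hα
  obtain ⟨J, F, hS⟩ := H839.flipStmt α hα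
  have he : ∀ i, ErgAt (VV α) (RR₁ α) (RR₂ α)
      ((QuotientGroup.mk' (Subgroup.center (A i))).comp (q i)) := fun i =>
    H628.ErgAt.comp (herg i) _ continuous_quot_mk
  have hscS : ∀ a ∈ Set.range (RR₂ α), ∀ g, a * VV α g = VV α g * a := by
    rintro _ ⟨g, rfl⟩ k; exact (hT.comm₂ k g).symm
  have hscT : ∀ a ∈ Set.range (RR₂ α), ∀ g, a * RR₁ α g = RR₁ α g * a := by
    rintro _ ⟨g, rfl⟩ k; exact (hT.comm₁₂ k g).symm
  have hf : ∀ i, ∃ j, FinI ((QuotientGroup.mk' (Subgroup.center (A i))).comp (q i))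
      ((QuotientGroup.mk' (Subgroup.center (A j))).comp (q j)) (VV α) (RR₁ α)
      (Set.range (RR₂ α)) := by
    intro i
    obtain ⟨j, hj⟩ := hfin i
    exact ⟨j, H113.passStmt _ _ _ _ _ _ _ hT.adjV hT.adj₁ hT.comm₁ hscS hscT
      (finI_of_finN H839.a1Stmt hT (herg i) hj)⟩
  obtain ⟨r, ζ, κ, hκ, -, h⟩ := overlap H144.matchRStmt H217.thAStmt H911.c5RStmt H911.c6RStmt
    H941.c7RStmt hT (swapLegStmt _ _ _ _ hT) hS good hp he hf
  obtain ⟨c, hc, hp4⟩ := height_fam hα ζ hκ h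
  exact canonical_iff θ (canonical_of_form _ (canon_of_p4 hα hicc hc hp4))

end core

section tors

variable {Γ Λ : Type} [Group Γ] [Group Λ] {α : Γ →* (Ell2 Λ →L[ℂ] Ell2 Λ)}
  {k : Type} [NontriviallyNormedField k] [IsUltrametricDist k] [ProperSpace k] {N : ℕ}

/-- Ergodicity of the comultiplication at a place which need not be injective, `Λ` arbitrary. -/
theorem ergAt_orb (hN : 2 ≤ N) (hα : Frame α)
    (hicc : ∀ g : Γ, g ≠ 1 → Set.Infinite {y : Γ | ∃ h, y = h * g * h⁻¹})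
    {p : Γ →* SpecialLinearGroup (Fin N) k} (hp : DenseRange p)
    (horb : ∀ U : Subgroup (SpecialLinearGroup (Fin N) k),
      IsOpen (U : Set (SpecialLinearGroup (Fin N) k)) → ∀ h : Γ, h ≠ 1 →
      {x : Γ | ∃ g ∈ U.comap p, x = g * h * g⁻¹}.Infinite) :
    ErgAt (VV α) (RR₁ α) (RR₂ α) p := by
  have horb' : ∀ U ∈ H632.flt p, ∀ g : Γ, g ≠ 1 →
      Set.Infinite {y : Γ | ∃ k ∈ U, y = k * g * k⁻¹} := by
    rintro U ⟨K, hK, -, hKU⟩ g hg
    refine (horb K hK g hg).mono ?_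
    rintro y ⟨h, hh, rfl⟩
    exact ⟨h, hKU hh, rfl⟩
  have hsys : H628.Sys α rhoH (dl (1 : Λ)) (H632.flt p) :=
    { regL := hα.reg
      regR := regRep_rho
      comm := fun g v => hα.comm g v
      ne := ⟨(H632.int N k).comap p, H632.int N k, H632.isOpen_int, H632.isCompact_int, le_rfl⟩
      up := fun U hU S hS => H632.flt_up hU hS
      inf := fun U hU U' hU' => H632.flt_inf hU hU'
      conj := fun U hU g => H632.flt_conj hU g
      orb := horb' }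
  intro U hU x hxV hx₁ hx₂
  refine erg_model_of hα (U.comap p : Set Γ) (fun k hk => (U.comap p).inv_mem hk) ?_
    ?_ (fun g hg => hxV g hg) hx₁ hx₂
  · intro g hg
    exact horb' _ (H628.open_mem_flt p hU) g hg
  · intro s hs S hS
    refine H945.torStmt α rhoH (dl 1) (H632.flt p) _ hsys (H632.volBd hN hp)
      (H628.icc_of_frame hα hicc) s hs S
      ⟨U.comap p, H628.open_mem_flt p hU, fun g hg => hS.ca _ ⟨⟨g, hg⟩, rfl⟩,
        fun c hc => hS.cr c hc, ?_⟩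
    have h1 := hS.fin
    have h2 : H628.nn rhoH (Subgroup.centralizer {s}) (dl (1 : Λ)) S
        = ENNReal.ofReal (∑' i : Λ ⧸ Subgroup.centralizer {s},
          ‖S (rhoH (i.out)⁻¹ (dl 1))‖ ^ 2) := by
      rw [ENNReal.ofReal_tsum_of_nonneg (fun _ => by positivity) h1]
      unfold H628.nn H628.sq H628.fn
      exact tsum_congr fun q => H628.esq _
    rw [h2]
    exact ENNReal.ofReal_ne_top

end tors

/-- [FIN] for any finite number of places, `t = 1`. -/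
def FinRStmt : Prop :=
  ∀ {I : Type} [Fintype I] (n : I → ℕ) (k : I → Type) [∀ i, NontriviallyNormedField (k i)]
    [∀ i, IsUltrametricDist (k i)] [∀ i, ProperSpace (k i)]
    (Γ : Subgroup (∀ i, SpecialLinearGroup (Fin (n i)) (k i))), (∀ i, 2 ≤ n i) →
    IsLattice Γ → (∀ i, DenseRange (pj Γ i)) →
    (∀ g : Γ, g ≠ 1 → Set.Infinite {y : Γ | ∃ h, y = h * g * h⁻¹}) →
    ∀ {Λ : Type} [Group Λ] (α : Γ →* (Ell2 Λ →L[ℂ] Ell2 Λ)), Frame α →
      ∀ i, ∃ j, FinN (pj Γ i) (pj Γ j) (VV α) (RR₁ α) (Set.range (RR₂ α))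

/-- The final theorem for any finite number of factors. -/
def SuperRStmt : Prop :=
  ∀ {I : Type} [Fintype I] (n : I → ℕ) (k : I → Type) [∀ i, NontriviallyNormedField (k i)]
    [∀ i, IsUltrametricDist (k i)] [∀ i, ProperSpace (k i)]
    (Γ : Subgroup (∀ i, SpecialLinearGroup (Fin (n i)) (k i))), (∀ i, 2 ≤ n i) →
    IsLattice Γ → (∀ i, DenseRange (pj Γ i)) →
    (∀ g : Γ, g ≠ 1 → Set.Infinite {y : Γ | ∃ h, y = h * g * h⁻¹}) →
    ∀ {Λ : Type} [Group Λ] (θ : H160.St.StarIso Γ Λ), H160.St.Canonical θ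

theorem superR_of (hFin : FinRStmt) : SuperRStmt := by
  intro I _ n k _ _ _ Γ hn hlat hd hicc Λ _ θ
  have := fun i => lc_sl (n i) (k i)
  have := fun i => sc_sl (n i) (k i)
  have hα : Frame (alphaOf (toAlg θ)) := frame_of_iso hicc (toAlg θ)
  refine core_r (pj Γ) (pj_inj Γ) (by rw [pi_pj]; exact hlat) hd hicc
    (fun i => H793.finite_center) (fun i => gfStmt (n i) (k i) (hn i)) θ (fun i => ?_)
    (hFin n k Γ hn hlat hd hicc _ hα)
  exact ergAt_orb (hn i) hα hicc (hd i) fun U hU h hh => ricc_sl hn Γ hlat i (hd i) hicc hh U hU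

end Vale.Agent.P092.H971
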