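import Vale.Agent.P092.H793.Lat

/-!
P092 (helper971): sequences in a lattice of a product which tend to `1` in all factors but one and to
infinity in the remaining one.
-/

set_option linter.all false

namespace Vale.Agent.P092.H971

open Topology MeasureTheory Set Filter
open Vale.Agent.P092.H515.St
open scoped ENNReal

/-- Recurrence on `E / Λ`. -/
theorem exists_pigeon {E : Type} [Group E] [TopologicalSpace E] [IsTopologicalGroup E]
    [SecondCountableTopology E] {Λ : Subgroup E} (hΛ : IsLattice Λ) {U : Set E}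
    (hU : U ∈ 𝓝 (1 : E)) (B : ℕ → E) :
    ∃ i j, i < j ∧ ∃ u ∈ U, ∃ u' ∈ U, u⁻¹ * ((B i)⁻¹ * B j) * u' ∈ Λ := by
  classical
  letI : MeasurableSpace (E ⧸ Λ) := borel _
  haveI : BorelSpace (E ⧸ Λ) := ⟨rfl⟩
  obtain ⟨ν, hν0, hνf, hνi⟩ := hΛ.covol
  set A : Set (E ⧸ Λ) := (fun x : E => (x : E ⧸ Λ)) '' interior U with hA
  have hAo : IsOpen A := QuotientGroup.isOpenMap_coe _ isOpen_interior
  have hAn : A.Nonempty := ⟨_, 1, mem_interior_iff_mem_nhds.2 hU, rfl⟩
  have hAp := H793.measure_open_ne_zero ν hν0 hνi hAo hAn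
  by_contra hcon
  push Not at hcon
  -- the translates of `A` are disjoint
  set T : ℕ → Set (E ⧸ Λ) := fun i => (fun x => (B i)⁻¹ • x) ⁻¹' A with hT
  have hTm : ∀ i, MeasurableSet (T i) := fun i =>
    (hAo.preimage (continuous_const_smul _)).measurableSet
  have hTν : ∀ i, ν (T i) = ν A := fun i => hνi _ _ hAo.measurableSet
  have hlt : ∀ i j, i < j → Disjoint (T i) (T j) := by
    intro i j hij
    rw [Set.disjoint_left]
    intro x hxi hxj
    obtain ⟨y, rfl⟩ := QuotientGroup.mk_surjective x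
    obtain ⟨u, hu, hu2⟩ := hxi
    obtain ⟨u', hu', hu2'⟩ := hxj
    change (u : E ⧸ Λ) = (((B i)⁻¹ * y : E) : E ⧸ Λ) at hu2
    change (u' : E ⧸ Λ) = (((B j)⁻¹ * y : E) : E ⧸ Λ) at hu2'
    rw [QuotientGroup.eq] at hu2 hu2'
    refine hcon i j hij u (interior_subset hu) u' (interior_subset hu') ?_
    have : u⁻¹ * ((B i)⁻¹ * B j) * u' = (u⁻¹ * ((B i)⁻¹ * y)) * (u'⁻¹ * ((B j)⁻¹ * y))⁻¹ := by
      group
    rw [this]
    exact Λ.mul_mem hu2 (Λ.inv_mem hu2')
  have hdis : Pairwise fun i j => Disjoint (T i) (T j) := by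
    intro i j hij
    rcases lt_or_gt_of_ne hij with h | h
    · exact hlt i j h
    · exact (hlt j i h).symm
  have h1 : ν (⋃ i, T i) = ∑' i, ν (T i) := measure_iUnion hdis hTm
  have h2 : ∑' i : ℕ, ν (T i) = ⊤ := by
    simp only [hTν]
    exact ENNReal.tsum_const_eq_top_of_ne_zero hAp
  rw [h2] at h1
  have h3 : ν (⋃ i, T i) ≤ ν univ := measure_mono (subset_univ _)
  rw [h1] at h3
  exact absurd hνf (not_lt.2 h3)

/-- In a noncompact group there are sequences with differences outside a given compact set. -/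
theorem exists_far {G : Type} [Group G] [TopologicalSpace G] [IsTopologicalGroup G]
    (hG : ¬ CompactSpace G) {D : Set G} (hD : IsCompact D) :
    ∃ b : ℕ → G, ∀ i j, i < j → (b i)⁻¹ * b j ∉ D := by
  classical
  have key : ∀ s : Finset G, (∀ x ∈ s, True) → ∃ y : G, True ∧ ∀ x ∈ s, x⁻¹ * y ∉ D := by
    intro s _
    by_contra hcon
    push Not at hcon
    apply hG
    have h1 : IsCompact (⋃ x ∈ s, (fun d => x * d) '' D) :=
      s.isCompact_biUnion fun x _ => hD.image (by fun_prop)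
    refine ⟨h1.of_isClosed_subset isClosed_univ ?_⟩
    intro y _
    obtain ⟨x, hx, hxy⟩ := hcon y trivial
    exact mem_iUnion₂.2 ⟨x, hx, _, hxy, by group⟩
  obtain ⟨b, -, hb⟩ := exists_seq_of_forall_finset_exists (fun _ : G => True)
    (fun x y => x⁻¹ * y ∉ D) key
  exact ⟨b, hb⟩

section pi

variable {I : Type} [Finite I] {G : I → Type} [∀ i, Group (G i)] [∀ i, TopologicalSpace (G i)]
  [∀ i, IsTopologicalGroup (G i)] [∀ i, SecondCountableTopology (G i)]
  [∀ i, LocallyCompactSpace (G i)] {Γ : Type} [Group Γ]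

/-- One element. -/
theorem exists_esc_one (p : ∀ i, Γ →* G i) (hlat : IsLattice (MonoidHom.pi p).range) (k : I)
    (hk : ¬ CompactSpace (G k)) {V : Set (∀ i, G i)} (hV : V ∈ 𝓝 (1 : ∀ i, G i)) {D : Set (G k)}
    (hD : IsCompact D) :
    ∃ w : Γ, p k w ∉ D ∧ ∃ v ∈ V, ∀ l, l ≠ k → p l w = v l := by
  classical
  -- a compact neighbourhood `C` with `C⁻¹ C ⊆ V`
  obtain ⟨V₁, hV₁, hV₁2⟩ : ∃ V₁ ∈ 𝓝 (1 : ∀ i, G i), ∀ x ∈ V₁, ∀ y ∈ V₁, x⁻¹ * y ∈ V := by
    have h1 : Tendsto (fun z : (∀ i, G i) × (∀ i, G i) => z.1⁻¹ * z.2) (𝓝 (1, 1)) (𝓝 1) := by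
      have : Continuous fun z : (∀ i, G i) × (∀ i, G i) => z.1⁻¹ * z.2 := by fun_prop
      simpa using this.tendsto (1, 1)
    have h2 := h1 hV
    rw [nhds_prod_eq] at h2
    obtain ⟨W, hW, hW2⟩ := mem_prod_same_iff.1 h2
    exact ⟨W, hW, fun x hx y hy => hW2 (mk_mem_prod hx hy)⟩
  obtain ⟨C, hC1, hCV, hC⟩ := local_compact_nhds hV₁
  set Ck : Set (G k) := (fun x : ∀ i, G i => x k) '' C with hCk
  have hCkc : IsCompact Ck := hC.image (continuous_apply k)
  set D' : Set (G k) := (fun z : (G k × G k) × G k => z.1.1 * z.1.2 * z.2⁻¹) '' ((Ck ×ˢ D) ×ˢ Ck)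
    with hD'
  have hD'c : IsCompact D' := ((hCkc.prod hD).prod hCkc).image (by fun_prop)
  obtain ⟨b, hb⟩ := exists_far hk hD'c
  obtain ⟨i, j, hij, u, hu, u', hu', hw⟩ := exists_pigeon hlat hC1
    fun n => (Pi.mulSingle k (b n) : ∀ i, G i)
  obtain ⟨w, hw⟩ := hw
  have hw' : ∀ l, p l w = (u l)⁻¹ * (((Pi.mulSingle k (b i) : ∀ i, G i) l)⁻¹ *
      (Pi.mulSingle k (b j) : ∀ i, G i) l) * u' l := fun l => congrFun hw l
  refine ⟨w, ?_, u⁻¹ * u', hV₁2 u (hCV hu) u' (hCV hu'), fun l hl => ?_⟩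
  · intro hmem
    have e := hw' k
    rw [Pi.mulSingle_eq_same, Pi.mulSingle_eq_same] at e
    refine hb i j hij ⟨((u k, p k w), u' k), ⟨⟨⟨u, hu, rfl⟩, hmem⟩, ⟨u', hu', rfl⟩⟩, ?_⟩
    simp only [e]
    group
  · rw [hw' l, Pi.mulSingle_eq_of_ne hl, Pi.mulSingle_eq_of_ne hl]
    simp

/-- **Escaping sequences.** -/
theorem exists_esc (p : ∀ i, Γ →* G i) (hlat : IsLattice (MonoidHom.pi p).range) (k : I)
    (hk : ¬ CompactSpace (G k)) :
    ∃ w : ℕ → Γ, (∀ l, l ≠ k → Tendsto (fun n => p l (w n)) atTop (𝓝 1)) ∧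
      Tendsto (fun n => p k (w n)) atTop (cocompact (G k)) := by
  classical
  obtain ⟨V, hV⟩ := (𝓝 (1 : ∀ i, G i)).exists_antitone_basis
  obtain ⟨D⟩ : Nonempty (CompactExhaustion (G k)) := ⟨default⟩
  have key := fun n : ℕ => exists_esc_one p hlat k hk (hV.mem n) (D.isCompact n)
  choose w hw v hv hwv using key
  refine ⟨w, fun l hl => ?_, ?_⟩
  · have h1 : Tendsto v atTop (𝓝 1) := hV.tendsto hv
    have h2 : Tendsto (fun n => v n l) atTop (𝓝 1) := (continuous_apply l).tendsto _ |>.comp h1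
    refine h2.congr fun n => (hwv n l hl).symm
  · rw [tendsto_def]
    intro s hs
    obtain ⟨C, hC, hCs⟩ := mem_cocompact.1 hs
    obtain ⟨n, hn⟩ := D.exists_superset_of_isCompact hC
    refine mem_atTop_sets.2 ⟨n, fun m hm => ?_⟩
    refine hCs fun hmem => ?_
    exact hw m (D.subset hm (hn hmem))

end pi

end Vale.Agent.P092.H971
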